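import Mathlib

/-!
# Infinity-harmonic functions in the viscosity sense
-/

namespace P080

/-- The (unnormalized) infinity Laplacian `⟨D²φ(z) ∇φ(z), ∇φ(z)⟩`. -/
noncomputable def infLap {d : ℕ} (φ : EuclideanSpace ℝ (Fin d) → ℝ)
    (z : EuclideanSpace ℝ (Fin d)) : ℝ :=
  fderiv ℝ (fderiv ℝ φ) z (gradient φ z) (gradient φ z)

/-- `u` is infinity-harmonic on `Ω`: continuous on `Ω` and a viscosity solution of
`Δ_∞ u = 0`, tested with all `C²` functions `φ`, at all points of `Ω`. -/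
def InfHarmonicOn {d : ℕ} (u : EuclideanSpace ℝ (Fin d) → ℝ)
    (Ω : Set (EuclideanSpace ℝ (Fin d))) : Prop :=
  ContinuousOn u Ω ∧ ∀ z ∈ Ω, ∀ φ : EuclideanSpace ℝ (Fin d) → ℝ, ContDiff ℝ 2 φ →
    (IsLocalMax (fun x => u x - φ x) z → 0 ≤ infLap φ z) ∧
    (IsLocalMin (fun x => u x - φ x) z → infLap φ z ≤ 0)

end P080
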