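import Vale.Agent.Lib.P080.Multi3

namespace P080
open Set Filter Topology

section
variable {d : ℕ}

theorem exists_box (b : OrthonormalBasis (Fin d) ℝ (EuclideanSpace ℝ (Fin d)))
    {Ω : Set (EuclideanSpace ℝ (Fin d))} (hΩ : IsOpen Ω) {z : EuclideanSpace ℝ (Fin d)}
    (hz : z ∈ Ω) : ∃ ρ > 0, box b z ρ ⊆ Ω := by
  obtain ⟨R, hR, hRΩ⟩ := Metric.isOpen_iff.1 hΩ z hz
  refine ⟨R / (d + 1), by positivity, (box_subset_ball b z hR ?_).trans hRΩ⟩
  have h1 : (0 : ℝ) < d + 1 := by positivity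
  rw [div_pow, mul_div_assoc', div_le_iff₀ (by positivity)]
  nlinarith [sq_nonneg (R * d), sq_nonneg R, (Nat.cast_nonneg d : (0 : ℝ) ≤ d)]

theorem z_mem_box (b : OrthonormalBasis (Fin d) ℝ (EuclideanSpace ℝ (Fin d)))
    (z : EuclideanSpace ℝ (Fin d)) {ρ : ℝ} (hρ : 0 < ρ) : z ∈ box b z ρ :=
  ball_subset_box b z ρ (Metric.mem_ball_self hρ)

theorem main_diff {Ω : Set (EuclideanSpace ℝ (Fin d))} (hΩ : IsOpen Ω)
    {u : EuclideanSpace ℝ (Fin d) → ℝ} (hu : InfHarmonicOn u Ω)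
    (b : OrthonormalBasis (Fin d) ℝ (EuclideanSpace ℝ (Fin d))) (f : Fin d → ℝ → ℝ)
    (hsep : ∀ x ∈ Ω, u x = ∑ i, f i (innerSL ℝ (b i) x))
    {x : EuclideanSpace ℝ (Fin d)} (hx : x ∈ Ω) :
    DifferentiableAt ℝ u x ∧ ContinuousAt (gradient u) x := by
  obtain ⟨ρ, hρ, hQ⟩ := exists_box b hΩ hx
  obtain ⟨a, e, ha0, hae⟩ := structure_box hu b f hρ hQ (fun y hy => hsep y (hQ hy))
  have hg : ∀ y ∈ box b x ρ,
      HasGradientAt u (∑ i, deriv (f i) (innerSL ℝ (b i) y) • b i) y := fun y hy =>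
    grad_box b f (fun y hy => hsep y (hQ hy)) (fun i => (hae i).1) hy
  have hxb := z_mem_box b x hρ
  refine ⟨(hg x hxb).differentiableAt, ?_⟩
  have hc : ContinuousAt (fun y => ∑ i, deriv (f i) (innerSL ℝ (b i) y) • b i) x := by
    refine tendsto_finsetSum _ fun i _ => ?_
    have h1 : ContinuousAt (deriv (f i)) (innerSL ℝ (b i) x) := by
      refine continuousAt_of_cube (c := 6 * a i) (e := e i) ?_
      filter_upwards [isOpen_Ioo.mem_nhds (hxb i)] with t ht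
      exact (hae i).2 t ht
    have h2 : ContinuousAt (fun y => deriv (f i) (innerSL ℝ (b i) y)) x :=
      ContinuousAt.comp (f := fun y => innerSL ℝ (b i) y) h1 (tendsto_coord b i x)
    exact h2.smul continuousAt_const
  refine hc.congr ?_
  filter_upwards [(isOpen_box b x ρ).mem_nhds hxb] with y hy
  exact ((hg y hy).gradient).symm

theorem sqrt_bound {d : ℕ} (R : ℝ) (hd : 0 < d) : d * (R / √(d : ℝ)) ^ 2 = R ^ 2 := by
  have hd' : (0 : ℝ) < d := by exact_mod_cast hd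
  rw [div_pow, Real.sq_sqrt hd'.le]
  field_simp

theorem main_holder {Ω : Set (EuclideanSpace ℝ (Fin d))}
    {u : EuclideanSpace ℝ (Fin d) → ℝ} (hu : InfHarmonicOn u Ω)
    (b : OrthonormalBasis (Fin d) ℝ (EuclideanSpace ℝ (Fin d))) (f : Fin d → ℝ → ℝ)
    (hsep : ∀ x ∈ Ω, u x = ∑ i, f i (innerSL ℝ (b i) x))
    (z : EuclideanSpace ℝ (Fin d)) {R M : ℝ} (hR : 0 < R) (hB : Metric.ball z R ⊆ Ω)
    (hM : ∀ x ∈ Metric.ball z R, ∀ y ∈ Metric.ball z R, |u x - u y| ≤ M) :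
    (∀ x ∈ Metric.ball z (R / √(d : ℝ)), ∀ y ∈ Metric.ball z (R / √(d : ℝ)),
        ‖gradient u x - gradient u y‖ ^ 3 ≤ 128 * d ^ 5 * M ^ 3 / R ^ 4 * ‖x - y‖) ∧
      ∃ a e : Fin d → ℝ, ∑ i, a i = 0 ∧ ∀ x ∈ Metric.ball z (R / √(d : ℝ)), ∀ i,
        (inner ℝ (b i) (gradient u x)) ^ 3 = a i * inner ℝ (b i) x + e i := by
  rcases Nat.eq_zero_or_pos d with hd | hd
  · subst hd
    have h0 : Metric.ball z (R / √((0 : ℕ) : ℝ)) = ∅ := by simp
    rw [h0]
    refine ⟨fun x hx => absurd hx (notMem_empty x), 0, 0, by simp,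
      fun x hx => absurd hx (notMem_empty x)⟩
  · have hd' : (0 : ℝ) < d := by exact_mod_cast hd
    set ρ := R / √(d : ℝ) with hρd
    have hρ : 0 < ρ := by positivity
    have hρR : d * ρ ^ 2 = R ^ 2 := sqrt_bound R hd
    have hbb : box b z ρ ⊆ Metric.ball z R := box_subset_ball b z hR hρR.le
    have hQ : box b z ρ ⊆ Ω := hbb.trans hB
    have hsep' : ∀ x ∈ box b z ρ, u x = ∑ i, f i (innerSL ℝ (b i) x) := fun y hy => hsep y (hQ hy)
    constructor
    · intro x hx y hy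
      have h1 := holder_box hu b f hρ hQ hsep'
        (fun x hx y hy => hM x (hbb hx) y (hbb hy)) (ball_subset_box b z ρ hx)
        (ball_subset_box b z ρ hy)
      refine h1.trans (le_of_eq ?_)
      have h2 : R ^ 4 = d ^ 2 * ρ ^ 4 := by
        have : R ^ 4 = (R ^ 2) ^ 2 := by ring
        rw [this, ← hρR]; ring
      rw [h2]
      field_simp
    · obtain ⟨a, e, ha0, hae⟩ := structure_box hu b f hρ hQ hsep'
      refine ⟨fun i => 6 * a i, e, ?_, ?_⟩
      · rw [← Finset.mul_sum, ha0, mul_zero]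
      · intro x hx i
        have hxb := ball_subset_box b z ρ hx
        have hg := (grad_box b f hsep' (fun i => (hae i).1) hxb).gradient
        rw [hg]
        have h3 := coord_sum b (fun i => deriv (f i) (innerSL ℝ (b i) x)) i
        rw [innerSL_apply_apply] at h3
        rw [h3, (hae i).2 _ (hxb i), innerSL_apply_apply]

end

end P080
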