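import Vale.Agent.Lib.P080.OneB
import Vale.Agent.Lib.P080.Defs

namespace P080
open Set Filter Topology

/-! ### one-dimensional estimates -/

theorem abs_sub_cube_le (a b : ℝ) : |a - b| ^ 3 ≤ 4 * |a ^ 3 - b ^ 3| := by
  have h1 : a ^ 3 - b ^ 3 = (a - b) * (a ^ 2 + a * b + b ^ 2) := by ring
  have h2 : 0 ≤ a ^ 2 + a * b + b ^ 2 := by nlinarith [sq_nonneg (a + b), sq_nonneg a, sq_nonneg b]
  have h3 : |a - b| ^ 2 ≤ 4 * (a ^ 2 + a * b + b ^ 2) := by
    rw [sq_abs]; nlinarith [sq_nonneg (a + b)]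
  rw [h1, abs_mul, abs_of_nonneg h2]
  have h4 : 0 ≤ |a - b| := abs_nonneg _
  nlinarith [mul_le_mul_of_nonneg_left h3 h4]

theorem slope_bound_aux {f : ℝ → ℝ} {x₁ x₂ ρ c e M : ℝ} (hρ : 0 < ρ) (h12 : x₂ - x₁ = ρ / 2)
    (hd : ∀ x ∈ Icc x₁ x₂, HasDerivAt f (deriv f x) x)
    (hc : ∀ x ∈ Icc x₁ x₂, deriv f x ^ 3 = c * x + e)
    (hM : |f x₂ - f x₁| ≤ M) (hP : ∀ x ∈ Icc x₁ x₂, |c| * (ρ / 4) ≤ |c * x + e|) :
    |c| * ρ ^ 4 ≤ 32 * M ^ 3 := by
  have hlt : x₁ < x₂ := by linarith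
  obtain ⟨ξ, hξ, hs⟩ := exists_hasDerivAt_eq_slope f (deriv f) hlt
    (fun x hx => (hd x hx).continuousAt.continuousWithinAt)
    (fun x hx => hd x (Ioo_subset_Icc_self hx))
  have hξ' := Ioo_subset_Icc_self hξ
  have h1 : |f x₂ - f x₁| = |deriv f ξ| * (ρ / 2) := by
    rw [hs, h12, abs_div, abs_of_pos (by positivity : (0:ℝ) < ρ / 2)]
    field_simp
  have h2 : |c| * (ρ / 4) ≤ |deriv f ξ| ^ 3 := by
    rw [← abs_pow, hc ξ hξ']
    exact hP ξ hξ'
  have h3 : (|deriv f ξ| * (ρ / 2)) ^ 3 ≤ M ^ 3 := by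
    rw [← h1]
    exact pow_le_pow_left₀ (abs_nonneg _) hM 3
  have h4 : |c| * (ρ / 4) * (ρ / 2) ^ 3 ≤ |deriv f ξ| ^ 3 * (ρ / 2) ^ 3 :=
    mul_le_mul_of_nonneg_right h2 (by positivity)
  have h5 : |c| * (ρ / 4) * (ρ / 2) ^ 3 = |c| * ρ ^ 4 / 32 := by ring
  have h6 : |deriv f ξ| ^ 3 * (ρ / 2) ^ 3 = (|deriv f ξ| * (ρ / 2)) ^ 3 := by ring
  rw [h5, h6] at h4
  linarith

theorem slope_bound {f : ℝ → ℝ} {z ρ c e M : ℝ} (hρ : 0 < ρ)
    (hd : ∀ x ∈ Ioo (z - ρ) (z + ρ), HasDerivAt f (deriv f x) x)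
    (hc : ∀ x ∈ Ioo (z - ρ) (z + ρ), deriv f x ^ 3 = c * x + e)
    (hM : ∀ x ∈ Ioo (z - ρ) (z + ρ), ∀ y ∈ Ioo (z - ρ) (z + ρ), |f x - f y| ≤ M) :
    |c| * ρ ^ 4 ≤ 32 * M ^ 3 := by
  rcases le_total 0 ((c * z + e) * c) with h | h
  · have hsub : Icc (z + ρ / 4) (z + 3 * ρ / 4) ⊆ Ioo (z - ρ) (z + ρ) :=
      fun x hx => ⟨by linarith [hx.1], by linarith [hx.2]⟩
    refine slope_bound_aux (x₁ := z + ρ / 4) (x₂ := z + 3 * ρ / 4) (f := f) (e := e) hρ (by ring)
      (fun x hx => hd x (hsub hx)) (fun x hx => hc x (hsub hx))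
      (hM _ (hsub (right_mem_Icc.2 (by linarith))) _ (hsub (left_mem_Icc.2 (by linarith)))) ?_
    intro x hx
    have h1 : c * x + e = (c * z + e) + c * (x - z) := by ring
    have h2 : ρ / 4 ≤ x - z := by linarith [hx.1]
    rcases le_total 0 c with h3 | h3
    · rcases eq_or_lt_of_le h3 with h4 | h4
      · rw [← h4]; simp
      · have h5 : 0 ≤ c * z + e := by
          by_contra h6; push Not at h6
          nlinarith
        rw [abs_of_nonneg h3]
        refine le_trans ?_ (le_abs_self _)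
        nlinarith
    · rcases eq_or_lt_of_le h3 with h4 | h4
      · rw [h4]; simp
      · have h5 : c * z + e ≤ 0 := by
          by_contra h6; push Not at h6
          nlinarith
        rw [abs_of_nonpos h3]
        refine le_trans ?_ (neg_le_abs _)
        nlinarith
  · have hsub : Icc (z - 3 * ρ / 4) (z - ρ / 4) ⊆ Ioo (z - ρ) (z + ρ) :=
      fun x hx => ⟨by linarith [hx.1], by linarith [hx.2]⟩
    refine slope_bound_aux (x₁ := z - 3 * ρ / 4) (x₂ := z - ρ / 4) (f := f) (e := e) hρ (by ring)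
      (fun x hx => hd x (hsub hx)) (fun x hx => hc x (hsub hx))
      (hM _ (hsub (right_mem_Icc.2 (by linarith))) _ (hsub (left_mem_Icc.2 (by linarith)))) ?_
    intro x hx
    have h1 : c * x + e = (c * z + e) + c * (x - z) := by ring
    have h2 : ρ / 4 ≤ z - x := by linarith [hx.2]
    rcases le_total 0 c with h3 | h3
    · rcases eq_or_lt_of_le h3 with h4 | h4
      · rw [← h4]; simp
      · have h5 : c * z + e ≤ 0 := by
          by_contra h6; push Not at h6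
          nlinarith
        rw [abs_of_nonneg h3]
        refine le_trans ?_ (neg_le_abs _)
        nlinarith
    · rcases eq_or_lt_of_le h3 with h4 | h4
      · rw [h4]; simp
      · have h5 : 0 ≤ c * z + e := by
          by_contra h6; push Not at h6
          nlinarith
        rw [abs_of_nonpos h3]
        refine le_trans ?_ (le_abs_self _)
        nlinarith

/-! ### the test functions -/

section
variable {d : ℕ}

/-- The separable quadratic test function. -/
noncomputable def qt (b : OrthonormalBasis (Fin d) ℝ (EuclideanSpace ℝ (Fin d)))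
    (c p X : Fin d → ℝ) (w : EuclideanSpace ℝ (Fin d)) : ℝ :=
  ∑ i, (p i * (innerSL ℝ (b i) w - c i) + X i * (innerSL ℝ (b i) w - c i) ^ 2)

theorem contDiff_qt (b : OrthonormalBasis (Fin d) ℝ (EuclideanSpace ℝ (Fin d)))
    (c p X : Fin d → ℝ) : ContDiff ℝ 2 (qt b c p X) := by
  unfold qt
  refine ContDiff.sum fun i _ => ?_
  have h : ContDiff ℝ 2 (fun w => innerSL ℝ (b i) w - c i) :=
    (innerSL ℝ (b i)).contDiff.sub contDiff_const
  exact (contDiff_const.mul h).add (contDiff_const.mul (h.pow 2))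

theorem hasFDerivAt_qt (b : OrthonormalBasis (Fin d) ℝ (EuclideanSpace ℝ (Fin d)))
    (c p X : Fin d → ℝ) (w : EuclideanSpace ℝ (Fin d)) :
    HasFDerivAt (qt b c p X)
      (∑ i, (p i + 2 * X i * (innerSL ℝ (b i) w - c i)) • innerSL ℝ (b i)) w := by
  unfold qt
  refine HasFDerivAt.fun_sum fun i _ => ?_
  have h : HasFDerivAt (fun w => innerSL ℝ (b i) w - c i) (innerSL ℝ (b i)) w :=
    (innerSL ℝ (b i)).hasFDerivAt.sub_const _
  have h2 := (h.const_mul (p i)).add ((h.pow 2).const_mul (X i))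
  refine h2.congr_fderiv ?_
  ext v
  simp
  ring

theorem fderiv_qt (b : OrthonormalBasis (Fin d) ℝ (EuclideanSpace ℝ (Fin d)))
    (c p X : Fin d → ℝ) :
    fderiv ℝ (qt b c p X) = fun w =>
      (∑ i, (p i + 2 * X i * (innerSL ℝ (b i) w - c i)) • innerSL ℝ (b i)) :=
  funext fun w => (hasFDerivAt_qt b c p X w).fderiv

theorem fderiv2_qt (b : OrthonormalBasis (Fin d) ℝ (EuclideanSpace ℝ (Fin d)))
    (c p X : Fin d → ℝ) (w : EuclideanSpace ℝ (Fin d)) :
    fderiv ℝ (fderiv ℝ (qt b c p X)) w =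
      ∑ i, ((2 * X i) • innerSL ℝ (b i)).smulRight (innerSL ℝ (b i)) := by
  rw [fderiv_qt]
  refine HasFDerivAt.fderiv (HasFDerivAt.fun_sum fun i _ => ?_)
  have h : HasFDerivAt (fun w => p i + 2 * X i * (innerSL ℝ (b i) w - c i))
      ((2 * X i) • innerSL ℝ (b i)) w :=
    (((innerSL ℝ (b i)).hasFDerivAt.sub_const _).const_mul (2 * X i)).const_add _
  exact h.smul_const (innerSL ℝ (b i))

theorem gradient_qt (b : OrthonormalBasis (Fin d) ℝ (EuclideanSpace ℝ (Fin d)))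
    (c p X : Fin d → ℝ) {z : EuclideanSpace ℝ (Fin d)} (hz : ∀ i, innerSL ℝ (b i) z = c i) :
    gradient (qt b c p X) z = ∑ i, p i • b i := by
  have h : HasFDerivAt (qt b c p X)
      ((InnerProductSpace.toDual ℝ (EuclideanSpace ℝ (Fin d))) (∑ i, p i • b i)) z := by
    refine (hasFDerivAt_qt b c p X z).congr_fderiv ?_
    rw [map_sum]
    refine Finset.sum_congr rfl fun i _ => ?_
    rw [hz i, sub_self, mul_zero, add_zero, map_smul]
    rfl
  exact HasGradientAt.gradient h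

theorem infLap_qt (b : OrthonormalBasis (Fin d) ℝ (EuclideanSpace ℝ (Fin d)))
    (c p X : Fin d → ℝ) {z : EuclideanSpace ℝ (Fin d)} (hz : ∀ i, innerSL ℝ (b i) z = c i) :
    infLap (qt b c p X) z = 2 * ∑ i, p i ^ 2 * X i := by
  unfold infLap
  rw [fderiv2_qt, gradient_qt b c p X hz]
  have h1 : ∀ i, innerSL ℝ (b i) (∑ j, p j • b j) = p i := by
    intro i
    rw [innerSL_apply_apply]
    exact b.orthonormal.inner_right_fintype p i
  rw [Finset.mul_sum]
  simp only [sum_apply, ContinuousLinearMap.smulRight_apply,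
    smul_apply, h1, smul_eq_mul]
  refine Finset.sum_congr rfl fun i _ => ?_
  ring

end

end P080
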