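import Vale.Agent.Lib.P080.Multi

namespace P080
open Set Filter Topology

section
variable {d : ℕ}

theorem tendsto_coord (b : OrthonormalBasis (Fin d) ℝ (EuclideanSpace ℝ (Fin d)))
    (i : Fin d) (z : EuclideanSpace ℝ (Fin d)) :
    Tendsto (fun w => innerSL ℝ (b i) w) (𝓝 z) (𝓝 (innerSL ℝ (b i) z)) :=
  (innerSL ℝ (b i)).continuous.tendsto z

theorem sum_sup {u : EuclideanSpace ℝ (Fin d) → ℝ} {Ω Q : Set (EuclideanSpace ℝ (Fin d))}
    (hu : InfHarmonicOn u Ω) (b : OrthonormalBasis (Fin d) ℝ (EuclideanSpace ℝ (Fin d)))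
    (f : Fin d → ℝ → ℝ) (hQo : IsOpen Q) (hQ : Q ⊆ Ω)
    (hsep : ∀ x ∈ Q, u x = ∑ i, f i (innerSL ℝ (b i) x)) {z : EuclideanSpace ℝ (Fin d)}
    (hz : z ∈ Q) (p X : Fin d → ℝ)
    (hj : ∀ i, SupJ (f i) (innerSL ℝ (b i) z) (p i) (X i)) :
    0 ≤ ∑ i, p i ^ 2 * X i := by
  have h1 := (hu.2 z (hQ hz) (qt b (fun i => innerSL ℝ (b i) z) p X) (contDiff_qt _ _ _ _)).1
  rw [infLap_qt b _ p X (fun i => rfl)] at h1
  have h2 : ∀ᶠ w in 𝓝 z, ∀ i, f i (innerSL ℝ (b i) w) ≤ f i (innerSL ℝ (b i) z)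
      + p i * (innerSL ℝ (b i) w - innerSL ℝ (b i) z)
      + X i * (innerSL ℝ (b i) w - innerSL ℝ (b i) z) ^ 2 :=
    eventually_all.2 fun i => (tendsto_coord b i z).eventually (hj i)
  have h3 : IsLocalMax
      (fun x => u x - qt b (fun i => innerSL ℝ (b i) z) p X x) z := by
    filter_upwards [h2, hQo.mem_nhds hz] with w hw hwQ
    have h4 : qt b (fun i => innerSL ℝ (b i) z) p X z = 0 := by
      unfold qt; simp
    rw [h4, hsep w hwQ, hsep z hz]
    unfold qt
    rw [← Finset.sum_sub_distrib, sub_zero]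
    refine Finset.sum_le_sum fun i _ => ?_
    have := hw i
    linarith
  have := h1 h3
  linarith

theorem sum_sub {u : EuclideanSpace ℝ (Fin d) → ℝ} {Ω Q : Set (EuclideanSpace ℝ (Fin d))}
    (hu : InfHarmonicOn u Ω) (b : OrthonormalBasis (Fin d) ℝ (EuclideanSpace ℝ (Fin d)))
    (f : Fin d → ℝ → ℝ) (hQo : IsOpen Q) (hQ : Q ⊆ Ω)
    (hsep : ∀ x ∈ Q, u x = ∑ i, f i (innerSL ℝ (b i) x)) {z : EuclideanSpace ℝ (Fin d)}
    (hz : z ∈ Q) (p X : Fin d → ℝ)
    (hj : ∀ i, SubJ (f i) (innerSL ℝ (b i) z) (p i) (X i)) :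
    ∑ i, p i ^ 2 * X i ≤ 0 := by
  have h1 := (hu.2 z (hQ hz) (qt b (fun i => innerSL ℝ (b i) z) p X) (contDiff_qt _ _ _ _)).2
  rw [infLap_qt b _ p X (fun i => rfl)] at h1
  have h2 : ∀ᶠ w in 𝓝 z, ∀ i, f i (innerSL ℝ (b i) z)
      + p i * (innerSL ℝ (b i) w - innerSL ℝ (b i) z)
      + X i * (innerSL ℝ (b i) w - innerSL ℝ (b i) z) ^ 2 ≤ f i (innerSL ℝ (b i) w) :=
    eventually_all.2 fun i => (tendsto_coord b i z).eventually (hj i)
  have h3 : IsLocalMin
      (fun x => u x - qt b (fun i => innerSL ℝ (b i) z) p X x) z := by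
    filter_upwards [h2, hQo.mem_nhds hz] with w hw hwQ
    have h4 : qt b (fun i => innerSL ℝ (b i) z) p X z = 0 := by
      unfold qt; simp
    rw [h4, hsep w hwQ, hsep z hz]
    unfold qt
    rw [← Finset.sum_sub_distrib, sub_zero]
    refine Finset.sum_le_sum fun i _ => ?_
    have := hw i
    linarith
  have := h1 h3
  linarith

/-- The coordinate box. -/
def box (b : OrthonormalBasis (Fin d) ℝ (EuclideanSpace ℝ (Fin d)))
    (z : EuclideanSpace ℝ (Fin d)) (ρ : ℝ) : Set (EuclideanSpace ℝ (Fin d)) :=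
  {x | ∀ i, innerSL ℝ (b i) x ∈ Ioo (innerSL ℝ (b i) z - ρ) (innerSL ℝ (b i) z + ρ)}

theorem isOpen_box (b : OrthonormalBasis (Fin d) ℝ (EuclideanSpace ℝ (Fin d)))
    (z : EuclideanSpace ℝ (Fin d)) (ρ : ℝ) : IsOpen (box b z ρ) := by
  unfold box
  simp only [ofPred_forall]
  exact isOpen_iInter_of_finite fun i => isOpen_Ioo.preimage (innerSL ℝ (b i)).continuous

theorem coord_sum (b : OrthonormalBasis (Fin d) ℝ (EuclideanSpace ℝ (Fin d)))
    (c : Fin d → ℝ) (i : Fin d) : innerSL ℝ (b i) (∑ j, c j • b j) = c i := by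
  rw [innerSL_apply_apply]
  exact b.orthonormal.inner_right_fintype c i

theorem exists_point (b : OrthonormalBasis (Fin d) ℝ (EuclideanSpace ℝ (Fin d)))
    (z : EuclideanSpace ℝ (Fin d)) (ρ : ℝ) (c : Fin d → ℝ)
    (hc : ∀ i, c i ∈ Ioo (innerSL ℝ (b i) z - ρ) (innerSL ℝ (b i) z + ρ)) :
    ∃ x ∈ box b z ρ, ∀ i, innerSL ℝ (b i) x = c i := by
  refine ⟨∑ j, c j • b j, fun i => ?_, fun i => coord_sum b c i⟩
  rw [coord_sum]
  exact hc i

/-- Abstract minimization argument. -/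
theorem exists_common {ι : Type} [Fintype ι] (A B : ι → Set ℝ) (hA : ∀ i, (A i).Nonempty)
    (hB : ∀ i, (B i).Nonempty) (hAs : ∀ α : ι → ℝ, (∀ i, α i ∈ A i) → 0 ≤ ∑ i, α i)
    (hBs : ∀ β : ι → ℝ, (∀ i, β i ∈ B i) → ∑ i, β i ≤ 0)
    (hle : ∀ i, ∀ a b : ℝ, (∀ α ∈ A i, a ≤ α) → (∀ β ∈ B i, β ≤ b) → a ≤ b) :
    ∃ a : ι → ℝ, ∑ i, a i = 0 ∧ ∀ i, (∀ α ∈ A i, a i ≤ α) ∧ (∀ β ∈ B i, β ≤ a i) := by
  classical
  choose α₀ hα₀ using hA
  choose β₀ hβ₀ using hB
  have hbdA : ∀ i, BddBelow (A i) := by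
    intro i
    refine ⟨α₀ i - ∑ j, α₀ j, fun α hα => ?_⟩
    have h1 := hAs (Function.update α₀ i α) (fun j => by
      by_cases h : j = i
      · subst h; simpa using hα
      · simpa [h] using hα₀ j)
    rw [Finset.sum_update_of_mem (Finset.mem_univ i)] at h1
    have h2 : ∑ j, α₀ j = α₀ i + ∑ j ∈ Finset.univ \ {i}, α₀ j := by
      rw [← Finset.sum_sdiff (Finset.subset_univ {i})]
      simp [add_comm]
    linarith
  have hbdB : ∀ i, BddAbove (B i) := by
    intro i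
    refine ⟨β₀ i - ∑ j, β₀ j, fun β hβ => ?_⟩
    have h1 := hBs (Function.update β₀ i β) (fun j => by
      by_cases h : j = i
      · subst h; simpa using hβ
      · simpa [h] using hβ₀ j)
    rw [Finset.sum_update_of_mem (Finset.mem_univ i)] at h1
    have h2 : ∑ j, β₀ j = β₀ i + ∑ j ∈ Finset.univ \ {i}, β₀ j := by
      rw [← Finset.sum_sdiff (Finset.subset_univ {i})]
      simp [add_comm]
    linarith
  have hA0 : 0 ≤ ∑ i, sInf (A i) := by
    refine le_of_forall_pos_lt_add fun ε hε => ?_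
    have hε' : 0 < ε / (Fintype.card ι + 1) := by positivity
    have h1 : ∀ i, ∃ α ∈ A i, α < sInf (A i) + ε / (Fintype.card ι + 1) := fun i =>
      exists_lt_of_csInf_lt ⟨_, hα₀ i⟩ (by linarith)
    choose α hα hα' using h1
    have h2 := hAs α hα
    have h3 : ∑ i, α i ≤ ∑ i, (sInf (A i) + ε / (Fintype.card ι + 1)) :=
      Finset.sum_le_sum fun i _ => (hα' i).le
    rw [Finset.sum_add_distrib, Finset.sum_const, Finset.card_univ, nsmul_eq_mul] at h3
    have h4 : (Fintype.card ι : ℝ) * (ε / (Fintype.card ι + 1)) < ε := by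
      have h5 : (0 : ℝ) < Fintype.card ι + 1 := by positivity
      rw [mul_div_assoc', div_lt_iff₀ h5]
      nlinarith
    linarith
  have hB0 : ∑ i, sSup (B i) ≤ 0 := by
    refine le_of_forall_pos_lt_add fun ε hε => ?_
    have hε' : 0 < ε / (Fintype.card ι + 1) := by positivity
    have h1 : ∀ i, ∃ β ∈ B i, sSup (B i) - ε / (Fintype.card ι + 1) < β := fun i =>
      exists_lt_of_lt_csSup ⟨_, hβ₀ i⟩ (by linarith)
    choose β hβ hβ' using h1
    have h2 := hBs β hβ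
    have h3 : ∑ i, (sSup (B i) - ε / (Fintype.card ι + 1)) ≤ ∑ i, β i :=
      Finset.sum_le_sum fun i _ => (hβ' i).le
    rw [Finset.sum_sub_distrib, Finset.sum_const, Finset.card_univ, nsmul_eq_mul] at h3
    have h4 : (Fintype.card ι : ℝ) * (ε / (Fintype.card ι + 1)) < ε := by
      have h5 : (0 : ℝ) < Fintype.card ι + 1 := by positivity
      rw [mul_div_assoc', div_lt_iff₀ h5]
      nlinarith
    linarith
  have hl : ∀ i, sInf (A i) ≤ sSup (B i) := fun i =>
    hle i _ _ (fun α hα => csInf_le (hbdA i) hα) (fun β hβ => le_csSup (hbdB i) hβ)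
  have hsum : ∑ i, (sSup (B i) - sInf (A i)) = 0 := by
    apply le_antisymm
    · rw [Finset.sum_sub_distrib]; linarith
    · exact Finset.sum_nonneg fun i _ => sub_nonneg.2 (hl i)
  have heq : ∀ i, sSup (B i) = sInf (A i) := by
    intro i
    have := (Finset.sum_eq_zero_iff_of_nonneg (fun i _ => sub_nonneg.2 (hl i))).1 hsum i
      (Finset.mem_univ i)
    linarith
  refine ⟨fun i => sInf (A i), ?_, fun i => ⟨fun α hα => csInf_le (hbdA i) hα, fun β hβ => ?_⟩⟩
  · apply le_antisymm _ hA0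
    calc ∑ i, sInf (A i) = ∑ i, sSup (B i) := Finset.sum_congr rfl fun i _ => (heq i).symm
      _ ≤ 0 := hB0
  · show β ≤ sInf (A i)
    rw [← heq i]
    exact le_csSup (hbdB i) hβ

/-- Continuity of the one-variable functions. -/
theorem cont_of_box {u : EuclideanSpace ℝ (Fin d) → ℝ}
    (b : OrthonormalBasis (Fin d) ℝ (EuclideanSpace ℝ (Fin d))) (f : Fin d → ℝ → ℝ)
    {z : EuclideanSpace ℝ (Fin d)} {ρ : ℝ} (hρ : 0 < ρ) (hu : ContinuousOn u (box b z ρ))
    (hsep : ∀ x ∈ box b z ρ, u x = ∑ i, f i (innerSL ℝ (b i) x)) (i : Fin d) :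
    ContinuousOn (f i) (Ioo (innerSL ℝ (b i) z - ρ) (innerSL ℝ (b i) z + ρ)) := by
  classical
  let g : ℝ → EuclideanSpace ℝ (Fin d) :=
    fun t => ∑ j, (Function.update (fun j => innerSL ℝ (b j) z) i t j) • b j
  have hg1 : ∀ t j, innerSL ℝ (b j) (g t)
      = Function.update (fun j => innerSL ℝ (b j) z) i t j := fun t j => coord_sum b _ j
  have hgc : Continuous g := by
    refine continuous_finsetSum _ fun j _ => ?_
    have hcj : Continuous (fun t : ℝ => Function.update (fun j => innerSL ℝ (b j) z) i t j) := ?_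
    · exact hcj.smul continuous_const
    by_cases h : j = i
    · subst h
      simp only [Function.update_self]
      exact continuous_id
    · simp only [ne_eq, h, not_false_eq_true, Function.update_of_ne]
      exact continuous_const
  have hmaps : MapsTo g (Ioo (innerSL ℝ (b i) z - ρ) (innerSL ℝ (b i) z + ρ)) (box b z ρ) := by
    intro t ht j
    rw [hg1]
    by_cases h : j = i
    · subst h; simpa using ht
    · simp only [ne_eq, h, not_false_eq_true, Function.update_of_ne]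
      exact ⟨by linarith, by linarith⟩
  have h1 : ContinuousOn (fun t => u (g t) - ∑ j ∈ Finset.univ \ {i},
      f j (innerSL ℝ (b j) z)) (Ioo (innerSL ℝ (b i) z - ρ) (innerSL ℝ (b i) z + ρ)) :=
    (hu.comp hgc.continuousOn hmaps).sub continuousOn_const
  refine h1.congr fun t ht => ?_
  show f i t = u (g t) - ∑ j ∈ Finset.univ \ {i}, f j (innerSL ℝ (b j) z)
  rw [hsep _ (hmaps ht)]
  have h2 : ∑ j, f j (innerSL ℝ (b j) (g t)) = f i t
      + ∑ j ∈ Finset.univ \ {i}, f j (innerSL ℝ (b j) z) := by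
    rw [← Finset.sum_sdiff (Finset.subset_univ {i}), add_comm, Finset.sum_singleton, hg1]
    congr 1
    · simp
    · refine Finset.sum_congr rfl fun j hj => ?_
      have h : j ≠ i := by simpa using hj
      rw [hg1]
      simp [h]
  rw [h2]
  ring

end

end P080
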