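import Vale.Agent.Lib.P080.Multi2

namespace P080
open Set Filter Topology

section
variable {d : ℕ}

theorem structure_box {u : EuclideanSpace ℝ (Fin d) → ℝ} {Ω : Set (EuclideanSpace ℝ (Fin d))}
    (hu : InfHarmonicOn u Ω) (b : OrthonormalBasis (Fin d) ℝ (EuclideanSpace ℝ (Fin d)))
    (f : Fin d → ℝ → ℝ) {z : EuclideanSpace ℝ (Fin d)} {ρ : ℝ} (hρ : 0 < ρ)
    (hQ : box b z ρ ⊆ Ω)
    (hsep : ∀ x ∈ box b z ρ, u x = ∑ i, f i (innerSL ℝ (b i) x)) :
    ∃ a e : Fin d → ℝ, ∑ i, a i = 0 ∧ ∀ i,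
      (∀ t ∈ Ioo (innerSL ℝ (b i) z - ρ) (innerSL ℝ (b i) z + ρ),
        HasDerivAt (f i) (deriv (f i) t) t) ∧
      (∀ t ∈ Ioo (innerSL ℝ (b i) z - ρ) (innerSL ℝ (b i) z + ρ),
        deriv (f i) t ^ 3 = 6 * a i * t + e i) := by
  have hcont : ∀ i, ContinuousOn (f i) (Ioo (innerSL ℝ (b i) z - ρ) (innerSL ℝ (b i) z + ρ)) :=
    cont_of_box b f hρ (hu.1.mono hQ) hsep
  obtain ⟨a, ha0, ha⟩ := exists_common
    (fun i => {α : ℝ | ∃ t ∈ Ioo (innerSL ℝ (b i) z - ρ) (innerSL ℝ (b i) z + ρ),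
      ∃ p X, SupJ (f i) t p X ∧ p ^ 2 * X = α})
    (fun i => {α : ℝ | ∃ t ∈ Ioo (innerSL ℝ (b i) z - ρ) (innerSL ℝ (b i) z + ρ),
      ∃ p X, SubJ (f i) t p X ∧ p ^ 2 * X = α})
    (fun i => by
      obtain ⟨t, ht, p, X, h⟩ := exists_supJ (by linarith) (hcont i)
      exact ⟨_, t, ht, p, X, h, rfl⟩)
    (fun i => by
      obtain ⟨t, ht, p, X, h⟩ := exists_subJ (by linarith) (hcont i)
      exact ⟨_, t, ht, p, X, h, rfl⟩)
    (by
      intro α hα
      choose t ht p X hj he using hα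
      obtain ⟨x, hx, hxt⟩ := exists_point b z ρ t ht
      have := sum_sup hu b f (isOpen_box b z ρ) hQ hsep hx p X (fun i => by rw [hxt i]; exact hj i)
      simpa only [he] using this)
    (by
      intro α hα
      choose t ht p X hj he using hα
      obtain ⟨x, hx, hxt⟩ := exists_point b z ρ t ht
      have := sum_sub hu b f (isOpen_box b z ρ) hQ hsep hx p X (fun i => by rw [hxt i]; exact hj i)
      simpa only [he] using this)
    (by
      intro i a b' h1 h2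
      exact key_le (by linarith) (hcont i) (fun t ht p X hj => h1 _ ⟨t, ht, p, X, hj, rfl⟩)
        (fun t ht p X hj => h2 _ ⟨t, ht, p, X, hj, rfl⟩))
  have hkey : ∀ i, _ := fun i => key_eq (hcont i)
    (fun t ht p X hj => (ha i).1 _ ⟨t, ht, p, X, hj, rfl⟩)
    (fun t ht p X hj => (ha i).2 _ ⟨t, ht, p, X, hj, rfl⟩)
  choose h1 e he using hkey
  exact ⟨a, e, ha0, fun i => ⟨h1 i, he i⟩⟩

theorem grad_box {u : EuclideanSpace ℝ (Fin d) → ℝ}
    (b : OrthonormalBasis (Fin d) ℝ (EuclideanSpace ℝ (Fin d)))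
    (f : Fin d → ℝ → ℝ) {z : EuclideanSpace ℝ (Fin d)} {ρ : ℝ}
    (hsep : ∀ x ∈ box b z ρ, u x = ∑ i, f i (innerSL ℝ (b i) x))
    (hder : ∀ i, ∀ t ∈ Ioo (innerSL ℝ (b i) z - ρ) (innerSL ℝ (b i) z + ρ),
        HasDerivAt (f i) (deriv (f i) t) t)
    {x : EuclideanSpace ℝ (Fin d)} (hx : x ∈ box b z ρ) :
    HasGradientAt u (∑ i, deriv (f i) (innerSL ℝ (b i) x) • b i) x := by
  rw [hasGradientAt_iff_hasFDerivAt]
  have h1 : HasFDerivAt (fun y => ∑ i, f i (innerSL ℝ (b i) y))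
      (∑ i, deriv (f i) (innerSL ℝ (b i) x) • innerSL ℝ (b i)) x := by
    refine HasFDerivAt.fun_sum fun i _ => ?_
    exact (hder i _ (hx i)).comp_hasFDerivAt x (innerSL ℝ (b i)).hasFDerivAt
  have h2 : (InnerProductSpace.toDual ℝ (EuclideanSpace ℝ (Fin d)))
      (∑ i, deriv (f i) (innerSL ℝ (b i) x) • b i)
      = ∑ i, deriv (f i) (innerSL ℝ (b i) x) • innerSL ℝ (b i) := by
    rw [map_sum]
    refine Finset.sum_congr rfl fun i _ => ?_
    rw [map_smul]
    rfl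
  rw [h2]
  refine h1.congr_of_eventuallyEq ?_
  filter_upwards [(isOpen_box b z ρ).mem_nhds hx] with y hy
  exact hsep y hy

theorem continuousAt_of_cube {v : ℝ → ℝ} {c e t : ℝ} (h : ∀ᶠ s in 𝓝 t, v s ^ 3 = c * s + e) :
    ContinuousAt v t := by
  rw [Metric.continuousAt_iff']
  intro ε hε
  have ht : v t ^ 3 = c * t + e := h.self_of_nhds
  have h1 : ∀ᶠ s in 𝓝 t, 4 * |c * s - c * t| < ε ^ 3 := by
    have : ContinuousAt (fun s => 4 * |c * s - c * t|) t := by fun_prop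
    apply this.eventually_lt_const
    simp only [sub_self, abs_zero, mul_zero]
    positivity
  filter_upwards [h, h1] with s hs hs1
  rw [Real.dist_eq]
  have h2 := abs_sub_cube_le (v s) (v t)
  have h3 : v s ^ 3 - v t ^ 3 = c * s - c * t := by rw [hs, ht]; ring
  rw [h3] at h2
  exact lt_of_pow_lt_pow_left₀ 3 hε.le (lt_of_le_of_lt h2 hs1)

theorem ball_subset_box (b : OrthonormalBasis (Fin d) ℝ (EuclideanSpace ℝ (Fin d)))
    (z : EuclideanSpace ℝ (Fin d)) (ρ : ℝ) : Metric.ball z ρ ⊆ box b z ρ := by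
  intro x hx i
  have h1 : |innerSL ℝ (b i) x - innerSL ℝ (b i) z| ≤ ‖x - z‖ := by
    rw [← map_sub, innerSL_apply_apply]
    refine (abs_real_inner_le_norm _ _).trans ?_
    rw [b.orthonormal.1 i, one_mul]
  rw [Metric.mem_ball, dist_eq_norm] at hx
  have h2 := abs_lt.1 (lt_of_le_of_lt h1 hx)
  exact ⟨by linarith [h2.1], by linarith [h2.2]⟩

theorem box_subset_ball (b : OrthonormalBasis (Fin d) ℝ (EuclideanSpace ℝ (Fin d)))
    (z : EuclideanSpace ℝ (Fin d)) {ρ R : ℝ} (hR : 0 < R) (h : d * ρ ^ 2 ≤ R ^ 2) :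
    box b z ρ ⊆ Metric.ball z R := by
  intro x hx
  rw [Metric.mem_ball, dist_eq_norm]
  have h1 : ‖x - z‖ ^ 2 < R ^ 2 := by
    rw [← b.sum_sq_norm_inner_right (x - z)]
    rcases Nat.eq_zero_or_pos d with hd | hd
    · subst hd
      simp only [Finset.univ_eq_empty, Finset.sum_empty]
      positivity
    · have : ∑ i, ‖inner ℝ (b i) (x - z)‖ ^ 2 < ∑ _i : Fin d, ρ ^ 2 := by
        refine Finset.sum_lt_sum_of_nonempty ⟨⟨0, hd⟩, Finset.mem_univ _⟩ fun i _ => ?_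
        have h2 := hx i
        rw [innerSL_apply_apply, innerSL_apply_apply] at h2
        rw [inner_sub_right, Real.norm_eq_abs, sq_abs]
        have h3 : |inner ℝ (b i) x - inner ℝ (b i) z| < ρ :=
          abs_lt.2 ⟨by linarith [h2.1], by linarith [h2.2]⟩
        rw [← sq_abs]
        exact pow_lt_pow_left₀ h3 (abs_nonneg _) (by norm_num)
      refine lt_of_lt_of_le this ?_
      simpa using h
  exact lt_of_pow_lt_pow_left₀ 2 hR.le h1

theorem holder_box {u : EuclideanSpace ℝ (Fin d) → ℝ} {Ω : Set (EuclideanSpace ℝ (Fin d))}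
    (hu : InfHarmonicOn u Ω) (b : OrthonormalBasis (Fin d) ℝ (EuclideanSpace ℝ (Fin d)))
    (f : Fin d → ℝ → ℝ) {z : EuclideanSpace ℝ (Fin d)} {ρ M : ℝ} (hρ : 0 < ρ)
    (hQ : box b z ρ ⊆ Ω)
    (hsep : ∀ x ∈ box b z ρ, u x = ∑ i, f i (innerSL ℝ (b i) x))
    (hM : ∀ x ∈ box b z ρ, ∀ y ∈ box b z ρ, |u x - u y| ≤ M)
    {x y : EuclideanSpace ℝ (Fin d)} (hx : x ∈ box b z ρ) (hy : y ∈ box b z ρ) :
    ‖gradient u x - gradient u y‖ ^ 3 ≤ 128 * d ^ 3 * M ^ 3 / ρ ^ 4 * ‖x - y‖ := by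
  classical
  obtain ⟨a, e, ha0, hae⟩ := structure_box hu b f hρ hQ hsep
  have hgx := (grad_box b f hsep (fun i => (hae i).1) hx).gradient
  have hgy := (grad_box b f hsep (fun i => (hae i).1) hy).gradient
  have hosc : ∀ i, |6 * a i| * ρ ^ 4 ≤ 32 * M ^ 3 := by
    intro i
    refine slope_bound (e := e i) hρ (hae i).1 (hae i).2 ?_
    intro s hs t ht
    obtain ⟨p, hp, hp'⟩ := exists_point b z ρ
      (Function.update (fun j => innerSL ℝ (b j) z) i s) (fun j => by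
        by_cases h : j = i
        · subst h; simpa using hs
        · simp only [ne_eq, h, not_false_eq_true, Function.update_of_ne]
          exact ⟨by linarith, by linarith⟩)
    obtain ⟨q, hq, hq'⟩ := exists_point b z ρ
      (Function.update (fun j => innerSL ℝ (b j) z) i t) (fun j => by
        by_cases h : j = i
        · subst h; simpa using ht
        · simp only [ne_eq, h, not_false_eq_true, Function.update_of_ne]
          exact ⟨by linarith, by linarith⟩)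
    have h1 := hM p hp q hq
    rw [hsep p hp, hsep q hq, ← Finset.sum_sub_distrib] at h1
    rw [Finset.sum_eq_single i] at h1
    · simpa [hp', hq'] using h1
    · intro j _ hj
      rw [hp', hq', Function.update_of_ne hj, Function.update_of_ne hj, sub_self]
    · intro h; exact absurd (Finset.mem_univ i) h
  have hρ4 : 0 < ρ ^ 4 := by positivity
  have hi : ∀ i, |deriv (f i) (innerSL ℝ (b i) x) - deriv (f i) (innerSL ℝ (b i) y)| ^ 3
      ≤ 128 * M ^ 3 / ρ ^ 4 * ‖x - y‖ := by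
    intro i
    have h1 := abs_sub_cube_le (deriv (f i) (innerSL ℝ (b i) x))
      (deriv (f i) (innerSL ℝ (b i) y))
    have h2 : deriv (f i) (innerSL ℝ (b i) x) ^ 3 - deriv (f i) (innerSL ℝ (b i) y) ^ 3
        = 6 * a i * innerSL ℝ (b i) (x - y) := by
      rw [(hae i).2 _ (hx i), (hae i).2 _ (hy i), map_sub]; ring
    rw [h2, abs_mul] at h1
    have h3 : |innerSL ℝ (b i) (x - y)| ≤ ‖x - y‖ := by
      rw [innerSL_apply_apply]
      refine (abs_real_inner_le_norm _ _).trans ?_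
      rw [b.orthonormal.1 i, one_mul]
    have h4 : |6 * a i| ≤ 32 * M ^ 3 / ρ ^ 4 := by
      rw [le_div_iff₀ hρ4]; exact hosc i
    have h5 : |6 * a i| * |innerSL ℝ (b i) (x - y)| ≤ 32 * M ^ 3 / ρ ^ 4 * ‖x - y‖ :=
      mul_le_mul h4 h3 (abs_nonneg _) ((abs_nonneg _).trans h4)
    calc _ ≤ 4 * (|6 * a i| * |innerSL ℝ (b i) (x - y)|) := h1
      _ ≤ 4 * (32 * M ^ 3 / ρ ^ 4 * ‖x - y‖) := by linarith
      _ = 128 * M ^ 3 / ρ ^ 4 * ‖x - y‖ := by ring
  rw [hgx, hgy, ← Finset.sum_sub_distrib]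
  have hn : ‖∑ i, (deriv (f i) (innerSL ℝ (b i) x) • b i - deriv (f i) (innerSL ℝ (b i) y) • b i)‖
      ≤ ∑ i, |deriv (f i) (innerSL ℝ (b i) x) - deriv (f i) (innerSL ℝ (b i) y)| := by
    refine (norm_sum_le _ _).trans (le_of_eq ?_)
    refine Finset.sum_congr rfl fun i _ => ?_
    rw [← sub_smul, norm_smul, b.orthonormal.1 i, mul_one, Real.norm_eq_abs]
  have hp := pow_sum_div_card_le_sum_pow (s := Finset.univ)
    (f := fun i => |deriv (f i) (innerSL ℝ (b i) x) - deriv (f i) (innerSL ℝ (b i) y)|)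
    (fun i _ => abs_nonneg _) 2
  have hs : ∑ i, |deriv (f i) (innerSL ℝ (b i) x) - deriv (f i) (innerSL ℝ (b i) y)| ^ 3
      ≤ d * (128 * M ^ 3 / ρ ^ 4 * ‖x - y‖) := by
    have := Finset.sum_le_sum (s := Finset.univ) (fun i _ => hi i)
    simpa using this
  rcases Nat.eq_zero_or_pos d with hd | hd
  · subst hd
    simp
  · have hd' : (0 : ℝ) < d := by exact_mod_cast hd
    simp only [Finset.card_univ, Fintype.card_fin] at hp
    rw [div_le_iff₀ (by positivity)] at hp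
    have h6 := pow_le_pow_left₀ (norm_nonneg _) hn 3
    calc _ ≤ (∑ i, |deriv (f i) (innerSL ℝ (b i) x) - deriv (f i) (innerSL ℝ (b i) y)|) ^ 3 := h6
      _ ≤ (∑ i, |deriv (f i) (innerSL ℝ (b i) x) - deriv (f i) (innerSL ℝ (b i) y)| ^ 3)
          * (d : ℝ) ^ 2 := hp
      _ ≤ (d * (128 * M ^ 3 / ρ ^ 4 * ‖x - y‖)) * (d : ℝ) ^ 2 :=
          mul_le_mul_of_nonneg_right hs (by positivity)
      _ = 128 * d ^ 3 * M ^ 3 / ρ ^ 4 * ‖x - y‖ := by ring

end

end P080
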