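import Mathlib

/-!
# One-dimensional second order jets and the inequality `a ≤ (f')² f'' / 1`

`SupJ f x p X`: the parabola with slope `p` and coefficient `X` touches `f` from above at `x`.
`SubJ f x p X`: it touches from below.
-/

namespace P080
open Set Filter Topology

def SupJ (f : ℝ → ℝ) (x p X : ℝ) : Prop :=
  ∀ᶠ y in 𝓝 x, f y ≤ f x + p * (y - x) + X * (y - x) ^ 2

def SubJ (f : ℝ → ℝ) (x p X : ℝ) : Prop :=
  ∀ᶠ y in 𝓝 x, f x + p * (y - x) + X * (y - x) ^ 2 ≤ f y

theorem SubJ.of_neg {f : ℝ → ℝ} {x p X : ℝ} (h : SupJ (fun w => -f w) x p X) :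
    SubJ f x (-p) (-X) := by
  filter_upwards [h] with y hy
  linarith

theorem SupJ.of_neg {f : ℝ → ℝ} {x p X : ℝ} (h : SubJ (fun w => -f w) x p X) :
    SupJ f x (-p) (-X) := by
  filter_upwards [h] with y hy
  linarith

theorem exists_int_max {G : ℝ → ℝ} {x y w : ℝ} (hG : ContinuousOn G (Icc x y))
    (hw : w ∈ Ioo x y) (h1 : G x < G w) (h2 : G y < G w) :
    ∃ ξ ∈ Ioo x y, ∀ z ∈ Icc x y, G z ≤ G ξ := by
  obtain ⟨ξ, hξ, hm⟩ := isCompact_Icc.exists_isMaxOn ⟨w, Ioo_subset_Icc_self hw⟩ hG
  refine ⟨ξ, ⟨lt_of_le_of_ne hξ.1 ?_, lt_of_le_of_ne hξ.2 ?_⟩, fun z hz => hm hz⟩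
  · rintro rfl; exact absurd (hm (Ioo_subset_Icc_self hw)) (not_le.2 h1)
  · rintro rfl; exact absurd (hm (Ioo_subset_Icc_self hw)) (not_le.2 h2)

/-- Existence of a parabola touching from above. -/
theorem exists_supJ {f : ℝ → ℝ} {s t : ℝ} (hst : s < t) (hf : ContinuousOn f (Ioo s t)) :
    ∃ x ∈ Ioo s t, ∃ p X, SupJ f x p X := by
  set L := t - s with hL
  have hLpos : 0 < L := by rw [hL]; linarith
  set x := s + L / 4 with hx
  set m := s + L / 2 with hm
  set y := s + 3 * L / 4 with hy
  have hsub : Icc x y ⊆ Ioo s t := by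
    intro z hz
    exact ⟨by linarith [hz.1], by linarith [hz.2]⟩
  set C := |f x| + |f y| + |f m| + 1 with hC
  have hCpos : 0 < C := by positivity
  set X := C / (L / 4) ^ 2 with hX
  have hXC : X * (L / 4) ^ 2 = C := by
    rw [hX]; field_simp
  obtain ⟨ξ, hξ, hmax⟩ := exists_int_max (G := fun w => f w - X * (w - m) ^ 2) (x := x) (y := y)
    (w := m) ((hf.mono hsub).sub (by fun_prop)) ⟨by linarith, by linarith⟩
    (by
      have e : x - m = -(L / 4) := by rw [hx, hm]; ring
      have e2 : (-(L / 4)) ^ 2 = (L / 4) ^ 2 := by ring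
      simp only [e, e2, hXC, sub_self]
      have := le_abs_self (f x)
      have := neg_abs_le (f m)
      have := abs_nonneg (f y)
      simp only [ne_eq, OfNat.ofNat_ne_zero, not_false_eq_true, zero_pow, mul_zero, sub_zero]
      linarith)
    (by
      have e : y - m = (L / 4) := by rw [hy, hm]; ring
      simp only [e, hXC, sub_self]
      have := le_abs_self (f y)
      have := neg_abs_le (f m)
      have := abs_nonneg (f x)
      simp only [ne_eq, OfNat.ofNat_ne_zero, not_false_eq_true, zero_pow, mul_zero, sub_zero]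
      linarith)
  refine ⟨ξ, hsub (Ioo_subset_Icc_self hξ), 2 * X * (ξ - m), X, ?_⟩
  filter_upwards [Icc_mem_nhds hξ.1 hξ.2] with w hw
  have := hmax w hw
  nlinarith [this]

theorem exists_subJ {f : ℝ → ℝ} {s t : ℝ} (hst : s < t) (hf : ContinuousOn f (Ioo s t)) :
    ∃ x ∈ Ioo s t, ∃ p X, SubJ f x p X := by
  obtain ⟨x, hx, p, X, h⟩ := exists_supJ hst hf.neg
  exact ⟨x, hx, _, _, SubJ.of_neg h⟩

theorem exists_sigma (K : ℝ) {η L : ℝ} (hη : 0 < η) (hL : 0 < L) :
    ∃ σ : ℝ, |σ| * L = η / 4 ∧ |σ| ≤ |K + σ| := by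
  have hpos : 0 < η / (4 * L) := by positivity
  rcases le_total 0 K with hk | hk
  · refine ⟨η / (4 * L), ?_, ?_⟩
    · rw [abs_of_pos hpos]; field_simp
    · rw [abs_of_pos hpos, abs_of_nonneg (by linarith)]; linarith
  · refine ⟨-(η / (4 * L)), ?_, ?_⟩
    · rw [abs_neg, abs_of_pos hpos]; field_simp
    · rw [abs_neg, abs_of_pos hpos, abs_of_nonpos (by linarith)]; linarith

/-- The contact point of a steep negative parabola with a function above its chord. -/
theorem exists_jet_of_above {f : ℝ → ℝ} {x y w : ℝ} (hf : ContinuousOn f (Icc x y))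
    (hw : w ∈ Ioo x y) {K : ℝ} (hK : K * (y - x) = f y - f x)
    (hη : 0 < f w - f x - K * (w - x)) :
    ∃ ξ ∈ Ioo x y, ∃ p X, SupJ f ξ p X ∧ p ^ 2 * X < 0 := by
  set L := y - x with hL
  have hLpos : 0 < L := by rw [hL]; linarith [hw.1, hw.2]
  set η := f w - f x - K * (w - x) with hηd
  obtain ⟨σ, hσL, hσK⟩ := exists_sigma K hη hLpos
  obtain ⟨δ, hδpos, hδL⟩ : ∃ δ : ℝ, 0 < δ ∧ δ * L ^ 2 = η / 16 := by
    refine ⟨η / (16 * L ^ 2), by positivity, ?_⟩
    field_simp
  have hwx0 : 0 ≤ w - x := by linarith [hw.1]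
  have hwxL : w - x ≤ L := by rw [hL]; linarith [hw.2]
  have hGw : f w - K * (w - x) - σ * (w - x) + δ * (w - x) ^ 2 > f x + η / 2 := by
    have e2 : σ * (w - x) ≤ η / 4 := by
      have h1 : σ * (w - x) ≤ |σ| * (w - x) := mul_le_mul_of_nonneg_right (le_abs_self σ) hwx0
      have h2 : |σ| * (w - x) ≤ |σ| * L := mul_le_mul_of_nonneg_left hwxL (abs_nonneg σ)
      linarith
    have e3 : 0 ≤ δ * (w - x) ^ 2 := by positivity
    linarith
  have hGy : f y - K * L - σ * L + δ * L ^ 2 ≤ f x + η / 4 + η / 16 := by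
    have e1 : -(σ * L) ≤ |σ| * L := by
      have := neg_abs_le σ
      nlinarith
    rw [hK, hδL]; linarith
  obtain ⟨ξ, hξ, hmax⟩ := exists_int_max
    (G := fun w => f w - K * (w - x) - σ * (w - x) + δ * (w - x) ^ 2) (x := x) (y := y)
    (w := w) (((hf.sub (by fun_prop)).sub (by fun_prop)).add (by fun_prop)) hw
    (by
      have : f x - K * (x - x) - σ * (x - x) + δ * (x - x) ^ 2 = f x := by ring
      linarith)
    (by
      have : f y - K * (y - x) - σ * (y - x) + δ * (y - x) ^ 2
        = f y - K * L - σ * L + δ * L ^ 2 := by rw [hL]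
      linarith)
  have hξ0 : 0 ≤ ξ - x := by linarith [hξ.1]
  have hξL : ξ - x ≤ L := by rw [hL]; linarith [hξ.2]
  refine ⟨ξ, hξ, K + σ - 2 * δ * (ξ - x), -δ, ?_, ?_⟩
  · filter_upwards [Icc_mem_nhds hξ.1 hξ.2] with v hv
    have := hmax v hv
    nlinarith [this]
  · have hp : K + σ - 2 * δ * (ξ - x) ≠ 0 := by
      intro h0
      have h1 : K + σ = 2 * δ * (ξ - x) := by linarith
      have h6 : 0 ≤ 2 * δ * (ξ - x) := by positivity
      rw [h1, abs_of_nonneg h6] at hσK
      have h4 : 2 * δ * (ξ - x) ≤ 2 * δ * L :=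
        mul_le_mul_of_nonneg_left hξL (by positivity)
      have h5 : |σ| * L ≤ 2 * δ * L * L := mul_le_mul_of_nonneg_right (by linarith) hLpos.le
      have : 2 * δ * L * L = η / 8 := by
        have : 2 * δ * L * L = 2 * (δ * L ^ 2) := by ring
        rw [this, hδL]; ring
      linarith
    have hp2 : 0 < (K + σ - 2 * δ * (ξ - x)) ^ 2 := by positivity
    nlinarith

/-- If no parabola with nonzero slope and negative curvature touches from above, `f` is convex. -/
theorem convexOn_of_plus {f : ℝ → ℝ} {s t : ℝ} (hf : ContinuousOn f (Ioo s t))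
    (h : ∀ x ∈ Ioo s t, ∀ p X, SupJ f x p X → 0 ≤ p ^ 2 * X) : ConvexOn ℝ (Ioo s t) f := by
  refine LinearOrder.convexOn_of_lt (convex_Ioo s t) ?_
  intro x hx y hy hxy a b ha hb hab
  by_contra hcon
  push Not at hcon
  simp only [smul_eq_mul] at hcon
  have hLpos : 0 < y - x := by linarith
  have hwx : (a * x + b * y) - x = b * (y - x) := by
    linear_combination (x) * hab
  have hyw : y - (a * x + b * y) = a * (y - x) := by
    linear_combination (-y) * hab
  have hbL : 0 < b * (y - x) := by positivity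
  have haL : 0 < a * (y - x) := by positivity
  have hsub : Icc x y ⊆ Ioo s t := fun z hz => ⟨lt_of_lt_of_le hx.1 hz.1, lt_of_le_of_lt hz.2 hy.2⟩
  obtain ⟨ξ, hξ, p, X, hj, hneg⟩ := exists_jet_of_above (hf.mono hsub)
    (w := a * x + b * y) ⟨by linarith, by linarith⟩ (K := (f y - f x) / (y - x))
    (by field_simp)
    (by
      rw [hwx]
      have : (f y - f x) / (y - x) * (b * (y - x)) = b * (f y - f x) := by field_simp
      rw [this]
      have : a * f x + b * f x = f x := by rw [← add_mul, hab, one_mul]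
      linarith)
  have := h ξ (hsub (Ioo_subset_Icc_self hξ)) _ _ hj
  linarith

/-- A convex function with `p² X ≤ b` for all parabolas touching from below is differentiable. -/
theorem hasDerivAt_of_convex_minus {f : ℝ → ℝ} {s t b : ℝ} (hc : ConvexOn ℝ (Ioo s t) f)
    (h : ∀ x ∈ Ioo s t, ∀ p X, SubJ f x p X → p ^ 2 * X ≤ b) {x : ℝ} (hx : x ∈ Ioo s t) :
    HasDerivAt f (deriv f x) x := by
  have hxi : x ∈ interior (Ioo s t) := by rwa [isOpen_Ioo.interior_eq]
  have hR := hc.hasDerivWithinAt_rightDeriv_of_mem_interior hxi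
  have hL := hc.hasDerivWithinAt_leftDeriv_of_mem_interior hxi
  have hLR := hc.leftDeriv_le_rightDeriv_of_mem_interior hxi
  set R := derivWithin f (Ioi x) x with hRdef
  set Lf := derivWithin f (Iio x) x with hLdef
  rcases eq_or_lt_of_le hLR with heq | hlt
  · rw [heq] at hL
    have : HasDerivAt f R x := by
      rw [← hasDerivWithinAt_univ, ← Iic_union_Ici (a := x)]
      exact (hasDerivWithinAt_Iio_iff_Iic.1 hL).union (hasDerivWithinAt_Ioi_iff_Ici.1 hR)
    exact this.differentiableAt.hasDerivAt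
  · exfalso
    obtain ⟨q, hq, hq0⟩ : ∃ q ∈ Ioo Lf R, q ≠ 0 := by
      by_cases h0 : (Lf + R) / 2 = 0
      · refine ⟨(Lf + 3 * R) / 4, ⟨by linarith, by linarith⟩, ?_⟩
        intro h1
        have : Lf = -R := by linarith
        linarith
      · exact ⟨(Lf + R) / 2, ⟨by linarith, by linarith⟩, h0⟩
    set X := (|b| + 1) / q ^ 2 with hX
    have hq2 : 0 < q ^ 2 := by positivity
    have hXpos : 0 < X := by positivity
    have hqX : q ^ 2 * X = |b| + 1 := by rw [hX]; field_simp
    have hjet : SubJ f x q X := by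
      set r := min ((R - q) / X) ((q - Lf) / X) with hr
      have hrpos : 0 < r := by
        apply lt_min
        · have := hq.2
          exact div_pos (by linarith) hXpos
        · have := hq.1
          exact div_pos (by linarith) hXpos
      filter_upwards [isOpen_Ioo.mem_nhds hx, Ioo_mem_nhds (show x - r < x by linarith)
        (show x < x + r by linarith)] with y hy hyr
      rcases lt_trichotomy y x with hyx | hyx | hyx
      · have hsl := hc.slope_le_leftDeriv_of_mem_interior hy hxi hyx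
        rw [slope_def_field] at hsl
        have hpos : 0 < x - y := by linarith
        rw [div_le_iff₀ hpos] at hsl
        have h1 : x - y ≤ (q - Lf) / X := by
          have := min_le_right ((R - q) / X) ((q - Lf) / X)
          linarith [hyr.1]
        rw [le_div_iff₀ hXpos] at h1
        nlinarith
      · rw [hyx]; simp
      · have hsl := hc.rightDeriv_le_slope_of_mem_interior hxi hy hyx
        rw [slope_def_field] at hsl
        have hpos : 0 < y - x := by linarith
        rw [le_div_iff₀ hpos] at hsl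
        have h1 : y - x ≤ (R - q) / X := by
          have := min_le_left ((R - q) / X) ((q - Lf) / X)
          linarith [hyr.2]
        rw [le_div_iff₀ hXpos] at h1
        nlinarith
    have := h x hx q X hjet
    rw [hqX] at this
    linarith [le_abs_self b]

end P080
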