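import Vale.Agent.Lib.P080.One

/-!
# The one-dimensional structure theorem: `a ≤ p² X ≤ a` on jets forces `(f')³ = 6 a x + e`.
-/

namespace P080
open Set Filter Topology

theorem continuousAt_deriv {f : ℝ → ℝ} {s t : ℝ} (hc : ConvexOn ℝ (Ioo s t) f)
    (hd : ∀ x ∈ Ioo s t, HasDerivAt f (deriv f x) x) {x : ℝ} (hx : x ∈ Ioo s t) :
    ContinuousAt (deriv f) x := by
  rw [Metric.continuousAt_iff']
  intro ε hε
  have hslope : Tendsto (slope f x) (𝓝[≠] x) (𝓝 (deriv f x)) := (hd x hx).tendsto_slope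
  have h1 : ∀ᶠ z in 𝓝[≠] x, slope f x z ∈ Ioo (deriv f x - ε) (deriv f x + ε) ∧ z ∈ Ioo s t :=
    (hslope.eventually (Ioo_mem_nhds (by linarith) (by linarith))).and
      (nhdsWithin_le_nhds (isOpen_Ioo.mem_nhds hx))
  obtain ⟨z, ⟨hz1, hz2⟩, hz3⟩ := ((h1.filter_mono
    (nhdsWithin_mono x (fun z (hz : z ∈ Ioi x) => ne_of_gt hz))).and
      (self_mem_nhdsWithin (a := x) (s := Ioi x))).exists
  obtain ⟨z', ⟨hz1', hz2'⟩, hz3'⟩ := ((h1.filter_mono
    (nhdsWithin_mono x (fun z (hz : z ∈ Iio x) => ne_of_lt hz))).and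
      (self_mem_nhdsWithin (a := x) (s := Iio x))).exists
  have hcf : ContinuousAt f x := (hd x hx).continuousAt
  have h2 : ∀ᶠ y in 𝓝 x, (f z - f y) / (z - y) < deriv f x + ε := by
    have : ContinuousAt (fun y => (f z - f y) / (z - y)) x :=
      ContinuousAt.div (by fun_prop) (by fun_prop) (by linarith)
    apply this.eventually_lt_const
    have := hz1.2
    rwa [slope_def_field] at this
  have h3 : ∀ᶠ y in 𝓝 x, deriv f x - ε < (f y - f z') / (y - z') := by
    have : ContinuousAt (fun y => (f y - f z') / (y - z')) x :=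
      ContinuousAt.div (by fun_prop) (by fun_prop) (by linarith)
    apply this.eventually_const_lt
    have := hz1'.1
    rw [slope_comm, slope_def_field] at this
    exact this
  filter_upwards [h2, h3, Ioo_mem_nhds hz3' hz3, isOpen_Ioo.mem_nhds hx] with y hy2 hy3 hy4 hy5
  have h4 := hc.le_slope_of_hasDerivAt hy5 hz2 hy4.2 (hd y hy5)
  have h5 := hc.slope_le_of_hasDerivAt hz2' hy5 hy4.1 (hd y hy5)
  rw [slope_def_field] at h4 h5
  rw [Real.dist_eq, abs_lt]
  constructor <;> linarith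

theorem nonneg_of_min_left {g : ℝ → ℝ} {g' x y : ℝ} (hxy : x < y) (hg : HasDerivAt g g' x)
    (hm : ∀ w ∈ Icc x y, g x ≤ g w) : 0 ≤ g' := by
  have h1 : Tendsto (slope g x) (𝓝[>] x) (𝓝 g') :=
    hg.tendsto_slope.mono_left (nhdsWithin_mono _ (fun z hz => ne_of_gt hz))
  refine ge_of_tendsto h1 ?_
  filter_upwards [Ioo_mem_nhdsGT hxy] with w hw
  rw [slope_def_field]
  exact div_nonneg (sub_nonneg.2 (hm w ⟨hw.1.le, hw.2.le⟩)) (by linarith [hw.1])

theorem nonpos_of_min_right {g : ℝ → ℝ} {g' x y : ℝ} (hxy : x < y) (hg : HasDerivAt g g' y)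
    (hm : ∀ w ∈ Icc x y, g y ≤ g w) : g' ≤ 0 := by
  have h1 : Tendsto (slope g y) (𝓝[<] y) (𝓝 g') :=
    hg.tendsto_slope.mono_left (nhdsWithin_mono _ (fun z hz => ne_of_lt hz))
  refine le_of_tendsto h1 ?_
  filter_upwards [Ioo_mem_nhdsLT hxy] with w hw
  rw [slope_def_field]
  exact div_nonpos_of_nonneg_of_nonpos (sub_nonneg.2 (hm w ⟨hw.1.le, hw.2.le⟩))
    (by linarith [hw.2])

theorem exists_subJ_between {f v : ℝ → ℝ} {x y X : ℝ} (hxy : x < y)
    (hd : ∀ w ∈ Icc x y, HasDerivAt f (v w) w) (hX : 2 * X * (y - x) < v y - v x) :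
    ∃ ξ ∈ Ioo x y, SubJ f ξ (v ξ) X := by
  set l := ((v x - 2 * X * x) + (v y - 2 * X * y)) / 2 with hl
  have hgd : ∀ w ∈ Icc x y,
      HasDerivAt (fun w => f w - X * w ^ 2 - l * w) (v w - 2 * X * w - l) w := by
    intro w hw
    have h1 : HasDerivAt (fun w : ℝ => X * w ^ 2) (2 * X * w) w := by
      have := (hasDerivAt_pow 2 w).const_mul X
      refine this.congr_deriv ?_
      norm_num; ring
    have h2 : HasDerivAt (fun w : ℝ => l * w) l w := by
      simpa using (hasDerivAt_id w).const_mul l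
    exact ((hd w hw).sub h1).sub h2
  obtain ⟨ξ, hξ, hm⟩ := isCompact_Icc.exists_isMinOn ⟨x, left_mem_Icc.2 hxy.le⟩
    (fun w hw => (hgd w hw).continuousAt.continuousWithinAt)
  have hm' : ∀ w ∈ Icc x y, f ξ - X * ξ ^ 2 - l * ξ ≤ f w - X * w ^ 2 - l * w :=
    fun w hw => hm hw
  have h1 : x < ξ := by
    refine lt_of_le_of_ne hξ.1 ?_
    rintro rfl
    have := nonneg_of_min_left hxy (hgd _ hξ) hm'
    simp only [hl] at this
    linarith
  have h2 : ξ < y := by
    refine lt_of_le_of_ne hξ.2 ?_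
    rintro rfl
    have := nonpos_of_min_right hxy (hgd _ hξ) hm'
    simp only [hl] at this
    linarith
  have h3 : v ξ - 2 * X * ξ - l = 0 := by
    have : IsLocalMin (fun w => f w - X * w ^ 2 - l * w) ξ := by
      filter_upwards [Icc_mem_nhds h1 h2] with w hw
      exact hm' w hw
    exact this.hasDerivAt_eq_zero (hgd ξ hξ)
  refine ⟨ξ, ⟨h1, h2⟩, ?_⟩
  filter_upwards [Icc_mem_nhds h1 h2] with w hw
  have h4 := hm' w hw
  have h5 : v ξ = 2 * X * ξ + l := by linarith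
  rw [h5]
  nlinarith [h4]

theorem exists_supJ_between {f v : ℝ → ℝ} {x y X : ℝ} (hxy : x < y)
    (hd : ∀ w ∈ Icc x y, HasDerivAt f (v w) w) (hX : v y - v x < 2 * X * (y - x)) :
    ∃ ξ ∈ Ioo x y, SupJ f ξ (v ξ) X := by
  obtain ⟨ξ, hξ, h⟩ := exists_subJ_between (f := fun w => -f w) (v := fun w => -v w) (X := -X) hxy
    (fun w hw => (hd w hw).neg) (by nlinarith)
  refine ⟨ξ, hξ, ?_⟩
  have := SupJ.of_neg h
  simpa using this

/-- Upper jets give a lower bound for the growth of the derivative. -/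
theorem growth_lower {f v : ℝ → ℝ} {x y a M : ℝ} (hxy : x < y)
    (hd : ∀ w ∈ Icc x y, HasDerivAt f (v w) w) (hv : v x ≤ v y)
    (hp : ∀ ξ ∈ Ioo x y, ∀ p X, SupJ f ξ p X → a ≤ p ^ 2 * X)
    (hM : ∀ ξ ∈ Ioo x y, v ξ ^ 2 ≤ M) :
    2 * a * (y - x) ≤ M * (v y - v x) := by
  have hpos : 0 < y - x := by linarith
  set X0 := (v y - v x) / (2 * (y - x)) with hX0
  have hX00 : 0 ≤ X0 := div_nonneg (by linarith) (by linarith)
  have key : a ≤ M * X0 := by
    have ht : Tendsto (fun X => M * X) (𝓝[>] X0) (𝓝 (M * X0)) :=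
      ((continuous_const.mul continuous_id).tendsto X0).mono_left nhdsWithin_le_nhds
    refine ge_of_tendsto ht ?_
    filter_upwards [self_mem_nhdsWithin] with X hX
    have hX' : X0 < X := hX
    have h1 : v y - v x < 2 * X * (y - x) := by
      rw [hX0, div_lt_iff₀ (by linarith)] at hX'
      linarith
    obtain ⟨ξ, hξ, hj⟩ := exists_supJ_between hxy hd h1
    have h2 := hp ξ hξ _ _ hj
    have h3 : v ξ ^ 2 * X ≤ M * X := mul_le_mul_of_nonneg_right (hM ξ hξ) (by linarith)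
    linarith
  have h4 : M * X0 * (2 * (y - x)) = M * (v y - v x) := by
    rw [hX0]; field_simp
  nlinarith

/-- Lower jets give an upper bound for the growth of the derivative. -/
theorem growth_upper {f v : ℝ → ℝ} {x y b m : ℝ} (hxy : x < y)
    (hd : ∀ w ∈ Icc x y, HasDerivAt f (v w) w) (hv : v x < v y)
    (hp : ∀ ξ ∈ Ioo x y, ∀ p X, SubJ f ξ p X → p ^ 2 * X ≤ b)
    (hm : ∀ ξ ∈ Ioo x y, m ≤ v ξ ^ 2) :
    m * (v y - v x) ≤ 2 * b * (y - x) := by
  have hpos : 0 < y - x := by linarith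
  set X0 := (v y - v x) / (2 * (y - x)) with hX0
  have hX00 : 0 < X0 := div_pos (by linarith) (by linarith)
  have key : m * X0 ≤ b := by
    have ht : Tendsto (fun X => m * X) (𝓝[<] X0) (𝓝 (m * X0)) :=
      ((continuous_const.mul continuous_id).tendsto X0).mono_left nhdsWithin_le_nhds
    refine le_of_tendsto ht ?_
    filter_upwards [self_mem_nhdsWithin, Ioo_mem_nhdsLT hX00] with X hX hX2
    have hX' : X < X0 := hX
    have h1 : 2 * X * (y - x) < v y - v x := by
      rw [hX0, lt_div_iff₀ (by linarith)] at hX'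
      linarith
    obtain ⟨ξ, hξ, hj⟩ := exists_subJ_between hxy hd h1
    have h2 := hp ξ hξ _ _ hj
    have h3 : m * X ≤ v ξ ^ 2 * X := mul_le_mul_of_nonneg_right (hm ξ hξ) hX2.1.le
    linarith
  have h4 : m * X0 * (2 * (y - x)) = m * (v y - v x) := by
    rw [hX0]; field_simp
  nlinarith

/-- The convex configuration. -/
structure Cfg (f v : ℝ → ℝ) (s t a b : ℝ) : Prop where
  der : ∀ x ∈ Ioo s t, HasDerivAt f (v x) x
  mono : MonotoneOn v (Ioo s t)
  cont : ∀ x ∈ Ioo s t, ContinuousAt v x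
  plus : ∀ x ∈ Ioo s t, ∀ p X, SupJ f x p X → a ≤ p ^ 2 * X
  minus : ∀ x ∈ Ioo s t, ∀ p X, SubJ f x p X → p ^ 2 * X ≤ b

theorem cfg_of {f : ℝ → ℝ} {s t a b : ℝ} (ha : 0 ≤ a) (hf : ContinuousOn f (Ioo s t))
    (hp : ∀ x ∈ Ioo s t, ∀ p X, SupJ f x p X → a ≤ p ^ 2 * X)
    (hm : ∀ x ∈ Ioo s t, ∀ p X, SubJ f x p X → p ^ 2 * X ≤ b) :
    Cfg f (deriv f) s t a b := by
  have hc := convexOn_of_plus hf (fun x hx p X h => ha.trans (hp x hx p X h))
  have hd : ∀ x ∈ Ioo s t, HasDerivAt f (deriv f x) x :=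
    fun x hx => hasDerivAt_of_convex_minus hc hm hx
  exact ⟨hd, hc.monotoneOn_deriv (fun x hx => (hd x hx).differentiableAt),
    fun x hx => continuousAt_deriv hc hd hx, hp, hm⟩

section
variable {f v : ℝ → ℝ} {s t a b : ℝ}

theorem Cfg.sub (_h : Cfg f v s t a b) {x y : ℝ} (hx : x ∈ Ioo s t) (hy : y ∈ Ioo s t) :
    Icc x y ⊆ Ioo s t :=
  fun _ hz => ⟨lt_of_lt_of_le hx.1 hz.1, lt_of_le_of_lt hz.2 hy.2⟩

theorem Cfg.lower (h : Cfg f v s t a b) {x y : ℝ} (hx : x ∈ Ioo s t) (hy : y ∈ Ioo s t)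
    (hxy : x < y) : 2 * a * (y - x) ≤ max (v x ^ 2) (v y ^ 2) * (v y - v x) := by
  have hsub := h.sub hx hy
  refine growth_lower hxy (fun w hw => h.der w (hsub hw)) (h.mono hx hy hxy.le)
    (fun ξ hξ => h.plus ξ (hsub (Ioo_subset_Icc_self hξ))) ?_
  intro ξ hξ
  have hξI := hsub (Ioo_subset_Icc_self hξ)
  have h1 := h.mono hx hξI hξ.1.le
  have h2 := h.mono hξI hy hξ.2.le
  rcases le_total 0 (v ξ) with h3 | h3
  · apply le_max_of_le_right; nlinarith
  · apply le_max_of_le_left; nlinarith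

theorem Cfg.strict (h : Cfg f v s t a b) (ha : 0 < a) {x y : ℝ} (hx : x ∈ Ioo s t)
    (hy : y ∈ Ioo s t) (hxy : x < y) : v x < v y := by
  refine lt_of_le_of_ne (h.mono hx hy hxy.le) ?_
  intro heq
  have := h.lower hx hy hxy
  rw [heq, sub_self, mul_zero] at this
  have h2 : 0 < 2 * a * (y - x) := by
    have : 0 < y - x := by linarith
    positivity
  linarith

theorem Cfg.upper (h : Cfg f v s t a b) (ha : 0 < a) {x y : ℝ} (hx : x ∈ Ioo s t)
    (hy : y ∈ Ioo s t) (hxy : x < y) (hs : 0 < v x * v y) :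
    min (v x ^ 2) (v y ^ 2) * (v y - v x) ≤ 2 * b * (y - x) := by
  have hsub := h.sub hx hy
  refine growth_upper hxy (fun w hw => h.der w (hsub hw)) (h.strict ha hx hy hxy)
    (fun ξ hξ => h.minus ξ (hsub (Ioo_subset_Icc_self hξ))) ?_
  intro ξ hξ
  have hξI := hsub (Ioo_subset_Icc_self hξ)
  have h1 := h.mono hx hξI hξ.1.le
  have h2 := h.mono hξI hy hξ.2.le
  rcases pos_and_pos_or_neg_and_neg_of_mul_pos hs with h3 | h3
  · apply min_le_of_left_le
    exact pow_le_pow_left₀ h3.1.le h1 2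
  · apply min_le_of_right_le
    nlinarith [h3.1, h3.2]

theorem Cfg.eventually_bounds (h : Cfg f v s t a b) (ha : 0 < a) {x : ℝ} (hx : x ∈ Ioo s t)
    (hvx : v x ≠ 0) : ∀ᶠ y in 𝓝[>] x,
      2 * a * (y - x) ≤ max (v x ^ 2) (v y ^ 2) * (v y - v x) ∧
      min (v x ^ 2) (v y ^ 2) * (v y - v x) ≤ 2 * b * (y - x) ∧ x < y ∧ 0 < v y ^ 2 := by
  have h1 : ∀ᶠ y in 𝓝 x, 0 < v x * v y := by
    have : ContinuousAt (fun y => v x * v y) x := continuousAt_const.mul (h.cont x hx)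
    apply this.eventually_const_lt
    exact mul_self_pos.2 hvx
  filter_upwards [nhdsWithin_le_nhds h1, nhdsWithin_le_nhds (isOpen_Ioo.mem_nhds hx),
    self_mem_nhdsWithin] with y hy1 hy2 hy3
  refine ⟨h.lower hx hy2 hy3, h.upper ha hx hy2 hy3 hy1, hy3, ?_⟩
  have : v y ≠ 0 := by
    rintro h0; rw [h0, mul_zero] at hy1; exact lt_irrefl _ hy1
  positivity

theorem Cfg.tendsto_max (h : Cfg f v s t a b) {x : ℝ} (hx : x ∈ Ioo s t) :
    Tendsto (fun y => max (v x ^ 2) (v y ^ 2)) (𝓝[>] x) (𝓝 (v x ^ 2)) := by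
  have : ContinuousAt (fun y => max (v x ^ 2) (v y ^ 2)) x :=
    continuousAt_const.max ((h.cont x hx).pow 2)
  have := this.tendsto
  rw [max_self] at this
  exact this.mono_left nhdsWithin_le_nhds

theorem Cfg.tendsto_min (h : Cfg f v s t a b) {x : ℝ} (hx : x ∈ Ioo s t) :
    Tendsto (fun y => min (v x ^ 2) (v y ^ 2)) (𝓝[>] x) (𝓝 (v x ^ 2)) := by
  have : ContinuousAt (fun y => min (v x ^ 2) (v y ^ 2)) x :=
    continuousAt_const.min ((h.cont x hx).pow 2)
  have := this.tendsto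
  rw [min_self] at this
  exact this.mono_left nhdsWithin_le_nhds

theorem Cfg.exists_ne (h : Cfg f v s t a b) (ha : 0 < a) (hst : s < t) :
    ∃ x ∈ Ioo s t, v x ≠ 0 := by
  have h1 : (2 * s + t) / 3 ∈ Ioo s t := ⟨by linarith, by linarith⟩
  have h2 : (s + 2 * t) / 3 ∈ Ioo s t := ⟨by linarith, by linarith⟩
  have h3 := h.strict ha h1 h2 (by linarith)
  by_cases h0 : v ((2 * s + t) / 3) = 0
  · exact ⟨_, h2, ne_of_gt (by rw [h0] at h3; exact h3)⟩
  · exact ⟨_, h1, h0⟩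

theorem Cfg.le (h : Cfg f v s t a b) (ha : 0 < a) (hst : s < t) : a ≤ b := by
  obtain ⟨x, hx, hvx⟩ := h.exists_ne ha hst
  have hV : 0 < v x ^ 2 := by positivity
  have key : 2 * a * v x ^ 2 ≤ 2 * b * v x ^ 2 := by
    refine le_of_tendsto_of_tendsto ((h.tendsto_min hx).const_mul (2 * a))
      ((h.tendsto_max hx).const_mul (2 * b)) ?_
    filter_upwards [h.eventually_bounds ha hx hvx] with y hy
    obtain ⟨h1, h2, h3, h4⟩ := hy
    have hm : 0 < min (v x ^ 2) (v y ^ 2) := lt_min hV h4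
    have hM : 0 < max (v x ^ 2) (v y ^ 2) := lt_max_of_lt_left hV
    have hpos : 0 < y - x := by linarith
    have h5 : 2 * a * (y - x) * min (v x ^ 2) (v y ^ 2)
        ≤ max (v x ^ 2) (v y ^ 2) * (v y - v x) * min (v x ^ 2) (v y ^ 2) :=
      mul_le_mul_of_nonneg_right h1 hm.le
    have h6 : max (v x ^ 2) (v y ^ 2) * (min (v x ^ 2) (v y ^ 2) * (v y - v x))
        ≤ max (v x ^ 2) (v y ^ 2) * (2 * b * (y - x)) := mul_le_mul_of_nonneg_left h2 hM.le
    have h7 : (2 * a * min (v x ^ 2) (v y ^ 2)) * (y - x)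
        ≤ (2 * b * max (v x ^ 2) (v y ^ 2)) * (y - x) := by nlinarith
    exact le_of_mul_le_mul_right h7 hpos
  nlinarith

theorem Cfg.hasDerivWithinAt (h : Cfg f v s t a a) (ha : 0 < a) {x : ℝ} (hx : x ∈ Ioo s t)
    (hvx : v x ≠ 0) : HasDerivWithinAt v (2 * a / v x ^ 2) (Ici x) x := by
  rw [← hasDerivWithinAt_Ioi_iff_Ici, hasDerivWithinAt_iff_tendsto_slope' (by simp)]
  have hV : 0 < v x ^ 2 := by positivity
  refine tendsto_of_tendsto_of_tendsto_of_le_of_le'
    ((tendsto_const_nhds (x := 2 * a)).div (h.tendsto_max hx) hV.ne')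
    ((tendsto_const_nhds (x := 2 * a)).div (h.tendsto_min hx) hV.ne') ?_ ?_
  · filter_upwards [h.eventually_bounds ha hx hvx] with y hy
    obtain ⟨h1, h2, h3, h4⟩ := hy
    have hM : 0 < max (v x ^ 2) (v y ^ 2) := lt_max_of_lt_left hV
    show 2 * a / max (v x ^ 2) (v y ^ 2) ≤ slope v x y
    rw [slope_def_field, div_le_div_iff₀ hM (by linarith)]
    linarith
  · filter_upwards [h.eventually_bounds ha hx hvx] with y hy
    obtain ⟨h1, h2, h3, h4⟩ := hy
    have hm : 0 < min (v x ^ 2) (v y ^ 2) := lt_min hV h4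
    show slope v x y ≤ 2 * a / min (v x ^ 2) (v y ^ 2)
    rw [slope_def_field, div_le_div_iff₀ (by linarith) hm]
    linarith

theorem Cfg.hasDeriv_cube (h : Cfg f v s t a a) (ha : 0 < a) {x : ℝ} (hx : x ∈ Ioo s t)
    (hvx : v x ≠ 0) : HasDerivWithinAt (fun w => v w ^ 3 - 6 * a * w) 0 (Ici x) x := by
  have h1 := (h.hasDerivWithinAt ha hx hvx).pow 3
  have h2 : HasDerivWithinAt (fun w : ℝ => 6 * a * w) (6 * a) (Ici x) x := by
    simpa using ((hasDerivAt_id x).const_mul (6 * a)).hasDerivWithinAt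
  refine (h1.sub h2).congr_deriv ?_
  norm_num
  field_simp
  ring

theorem Cfg.cont_cube (h : Cfg f v s t a b) {x : ℝ} (hx : x ∈ Ioo s t) :
    ContinuousAt (fun w => v w ^ 3 - 6 * a * w) x :=
  ((h.cont x hx).pow 3).sub (by fun_prop)

theorem Cfg.const_of_ne (h : Cfg f v s t a a) (ha : 0 < a) {x y : ℝ} (hx : x ∈ Ioo s t)
    (hy : y ∈ Ioo s t) (hxy : x ≤ y) (hne : ∀ w ∈ Ico x y, v w ≠ 0) :
    v y ^ 3 - 6 * a * y = v x ^ 3 - 6 * a * x := by
  have hsub := h.sub hx hy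
  exact constant_of_has_deriv_right_zero
    (f := fun w => v w ^ 3 - 6 * a * w) (a := x) (b := y)
    (fun w hw => (h.cont_cube (hsub hw)).continuousWithinAt)
    (fun w hw => h.hasDeriv_cube ha (hsub (Ico_subset_Icc_self hw)) (hne w hw)) y
    (right_mem_Icc.2 hxy)

theorem Cfg.const_le (h : Cfg f v s t a a) (ha : 0 < a) {x y : ℝ} (hx : x ∈ Ioo s t)
    (hy : y ∈ Ioo s t) (hxy : x ≤ y) :
    v y ^ 3 - 6 * a * y = v x ^ 3 - 6 * a * x := by
  by_cases hne : ∀ w ∈ Ico x y, v w ≠ 0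
  · exact h.const_of_ne ha hx hy hxy hne
  · push Not at hne
    obtain ⟨c, hc, hc0⟩ := hne
    have hsub := h.sub hx hy
    have hcI := hsub (Ico_subset_Icc_self hc)
    have huniq : ∀ w ∈ Ioo s t, v w = 0 → w = c := by
      intro w hw hw0
      rcases lt_trichotomy w c with h1 | h1 | h1
      · have := h.strict ha hw hcI h1; linarith
      · exact h1
      · have := h.strict ha hcI hw h1; linarith
    have h1 : v c ^ 3 - 6 * a * c = v x ^ 3 - 6 * a * x := by
      apply h.const_of_ne ha hx hcI hc.1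
      intro w hw hw0
      have := huniq w (h.sub hx hcI (Ico_subset_Icc_self hw)) hw0
      linarith [hw.2]
    have h2 : ∀ w ∈ Ioo c y, v y ^ 3 - 6 * a * y = v w ^ 3 - 6 * a * w := by
      intro w hw
      have hwI := h.sub hcI hy (Ioo_subset_Icc_self hw)
      apply h.const_of_ne ha hwI hy hw.2.le
      intro z hz hz0
      have := huniq z (h.sub hwI hy (Ico_subset_Icc_self hz)) hz0
      linarith [hz.1, hw.1]
    have h3 : v c ^ 3 - 6 * a * c = v y ^ 3 - 6 * a * y := by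
      have hcont := (h.cont_cube hcI).tendsto.mono_left
        (nhdsWithin_le_nhds (a := c) (s := Ioi c))
      refine tendsto_nhds_unique hcont (tendsto_const_nhds.congr' ?_)
      filter_upwards [Ioo_mem_nhdsGT hc.2] with w hw
      exact h2 w hw
    rw [← h3, h1]

theorem Cfg.const (h : Cfg f v s t a a) (ha : 0 < a) :
    ∃ e, ∀ x ∈ Ioo s t, v x ^ 3 = 6 * a * x + e := by
  by_cases hst : s < t
  · have hm : (s + t) / 2 ∈ Ioo s t := ⟨by linarith, by linarith⟩
    refine ⟨v ((s + t) / 2) ^ 3 - 6 * a * ((s + t) / 2), fun x hx => ?_⟩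
    rcases le_total x ((s + t) / 2) with h1 | h1
    · have := h.const_le ha hx hm h1; linarith
    · have := h.const_le ha hm hx h1; linarith
  · exact ⟨0, fun x hx => absurd (hx.1.trans hx.2) hst⟩

end

/-- Upper jets bounded below by `a` and lower jets bounded above by `b`: then `a ≤ b`. -/
theorem key_le {f : ℝ → ℝ} {s t a b : ℝ} (hst : s < t) (hf : ContinuousOn f (Ioo s t))
    (hp : ∀ x ∈ Ioo s t, ∀ p X, SupJ f x p X → a ≤ p ^ 2 * X)
    (hm : ∀ x ∈ Ioo s t, ∀ p X, SubJ f x p X → p ^ 2 * X ≤ b) : a ≤ b := by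
  rcases lt_or_ge 0 a with ha | ha
  · exact (cfg_of ha.le hf hp hm).le ha hst
  · rcases lt_or_ge b 0 with hb | hb
    · have := (cfg_of (f := fun w => -f w) (s := s) (t := t) (a := -b) (b := -a) (by linarith)
        hf.neg
        (fun x hx p X hj => by
          have := hm x hx _ _ (SubJ.of_neg hj)
          nlinarith)
        (fun x hx p X hj => by
          have := hp x hx _ _ (SupJ.of_neg hj)
          nlinarith)).le (by linarith) hst
      linarith
    · linarith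

/-- The case of equality: `(f')³` is affine with slope `6 a`. -/
theorem key_eq {f : ℝ → ℝ} {s t a : ℝ} (hf : ContinuousOn f (Ioo s t))
    (hp : ∀ x ∈ Ioo s t, ∀ p X, SupJ f x p X → a ≤ p ^ 2 * X)
    (hm : ∀ x ∈ Ioo s t, ∀ p X, SubJ f x p X → p ^ 2 * X ≤ a) :
    (∀ x ∈ Ioo s t, HasDerivAt f (deriv f x) x) ∧
      ∃ e, ∀ x ∈ Ioo s t, deriv f x ^ 3 = 6 * a * x + e := by
  have hp' : ∀ x ∈ Ioo s t, ∀ p X, SupJ (fun w => -f w) x p X → -a ≤ p ^ 2 * X :=
    (fun x hx p X hj => by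
      have := hm x hx _ _ (SubJ.of_neg hj)
      nlinarith)
  have hm' : ∀ x ∈ Ioo s t, ∀ p X, SubJ (fun w => -f w) x p X → p ^ 2 * X ≤ -a :=
    (fun x hx p X hj => by
      have := hp x hx _ _ (SupJ.of_neg hj)
      nlinarith)
  rcases lt_trichotomy 0 a with ha | ha | ha
  · have h := cfg_of ha.le hf hp hm
    exact ⟨h.der, h.const ha⟩
  · have h := cfg_of ha.le hf hp hm
    have h' := cfg_of (f := fun w => -f w) (by linarith) hf.neg hp' hm'
    refine ⟨h.der, ?_⟩
    have hcst : ∀ x ∈ Ioo s t, ∀ y ∈ Ioo s t, x ≤ y → deriv f x = deriv f y := by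
      intro x hx y hy hxy
      have h1 := h.mono hx hy hxy
      have h2 := h'.mono hx hy hxy
      have hx1 : deriv (fun w => -f w) x = - deriv f x := (h.der x hx).neg.deriv
      have hy1 : deriv (fun w => -f w) y = - deriv f y := (h.der y hy).neg.deriv
      rw [hx1, hy1] at h2
      linarith
    by_cases hst : s < t
    · have hmid : (s + t) / 2 ∈ Ioo s t := ⟨by linarith, by linarith⟩
      refine ⟨deriv f ((s + t) / 2) ^ 3, fun x hx => ?_⟩
      rw [← ha]
      rcases le_total x ((s + t) / 2) with h1 | h1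
      · rw [hcst x hx _ hmid h1]; ring
      · rw [hcst _ hmid x hx h1]; ring
    · exact ⟨0, fun x hx => absurd (hx.1.trans hx.2) hst⟩
  · have h := cfg_of (f := fun w => -f w) (by linarith) hf.neg hp' hm'
    have hd : ∀ x ∈ Ioo s t, HasDerivAt f (deriv f x) x := by
      intro x hx
      have := (h.der x hx).fun_neg
      simp only [neg_neg] at this
      exact this.differentiableAt.hasDerivAt
    refine ⟨hd, ?_⟩
    obtain ⟨e, he⟩ := h.const (by linarith)
    refine ⟨-e, fun x hx => ?_⟩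
    have h1 := he x hx
    have hx1 : deriv (fun w => -f w) x = - deriv f x := (hd x hx).neg.deriv
    rw [hx1] at h1
    nlinarith

end P080
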