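import Vale.Agent.Lib.P080.Multi3

/-!
# Infinity Laplacian of functions of coordinates with orthonormal gradients
-/

namespace P080
open Set Filter Topology

section
variable {d : ℕ}

theorem inner_grad (g : EuclideanSpace ℝ (Fin d) → ℝ) (w v : EuclideanSpace ℝ (Fin d)) :
    inner ℝ (gradient g w) v = fderiv ℝ g w v :=
  InnerProductSpace.toDual_symm_apply

theorem grad_eq_sum (b : OrthonormalBasis (Fin d) ℝ (EuclideanSpace ℝ (Fin d)))
    (g : EuclideanSpace ℝ (Fin d) → ℝ) (w : EuclideanSpace ℝ (Fin d)) :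
    gradient g w = ∑ i, (fderiv ℝ g w (b i)) • b i := by
  conv_lhs => rw [← b.sum_repr' (gradient g w)]
  refine Finset.sum_congr rfl fun i _ => ?_
  rw [real_inner_comm, inner_grad]

theorem norm_grad_sq (b : OrthonormalBasis (Fin d) ℝ (EuclideanSpace ℝ (Fin d)))
    (g : EuclideanSpace ℝ (Fin d) → ℝ) (w : EuclideanSpace ℝ (Fin d)) :
    ∑ i, (fderiv ℝ g w (b i)) ^ 2 = ‖gradient g w‖ ^ 2 := by
  rw [← b.sum_sq_norm_inner_right (gradient g w)]
  refine Finset.sum_congr rfl fun i _ => ?_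
  rw [real_inner_comm, inner_grad, Real.norm_eq_abs, sq_abs]

/-- A function with gradient of constant length is infinity-harmonic. -/
theorem hess_const_norm {g : EuclideanSpace ℝ (Fin d) → ℝ} {z : EuclideanSpace ℝ (Fin d)}
    (hg : DifferentiableAt ℝ (fderiv ℝ g) z) {C : ℝ}
    (hC : ∀ᶠ w in 𝓝 z, ‖gradient g w‖ ^ 2 = C) :
    fderiv ℝ (fderiv ℝ g) z (gradient g z) (gradient g z) = 0 := by
  let b := EuclideanSpace.basisFun (Fin d) ℝ
  have h1 : ∀ i, HasFDerivAt (fun w => (fderiv ℝ g w (b i)) ^ 2)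
      ((2 * fderiv ℝ g z (b i)) • (fderiv ℝ (fderiv ℝ g) z).flip (b i)) z := by
    intro i
    have h := (hg.hasFDerivAt.clm_apply (hasFDerivAt_const (b i) z)).pow 2
    refine h.congr_fderiv ?_
    ext v
    simp
  have h2 : HasFDerivAt (fun w => ∑ i, (fderiv ℝ g w (b i)) ^ 2)
      (∑ i, (2 * fderiv ℝ g z (b i)) • (fderiv ℝ (fderiv ℝ g) z).flip (b i)) z :=
    HasFDerivAt.fun_sum fun i _ => h1 i
  have h3 : HasFDerivAt (fun w => ∑ i, (fderiv ℝ g w (b i)) ^ 2)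
      (0 : EuclideanSpace ℝ (Fin d) →L[ℝ] ℝ) z := by
    refine (hasFDerivAt_const C z).congr_of_eventuallyEq ?_
    filter_upwards [hC] with w hw
    rw [norm_grad_sq]; exact hw
  have h4 := h2.unique h3
  have h5 := congrArg (fun l => l (gradient g z)) h4
  simp only [sum_apply, smul_apply, ContinuousLinearMap.flip_apply, smul_eq_mul,
    zero_apply] at h5
  have h6 : fderiv ℝ (fderiv ℝ g) z (gradient g z) (gradient g z)
      = ∑ i, fderiv ℝ g z (b i) * fderiv ℝ (fderiv ℝ g) z (gradient g z) (b i) := by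
    have e := congrArg (fun x => fderiv ℝ (fderiv ℝ g) z (gradient g z) x) (grad_eq_sum b g z)
    simp only [map_sum, map_smul, smul_eq_mul] at e
    exact e
  have h7 : ∑ i, 2 * fderiv ℝ g z (b i) * fderiv ℝ (fderiv ℝ g) z (gradient g z) (b i)
      = 2 * fderiv ℝ (fderiv ℝ g) z (gradient g z) (gradient g z) := by
    rw [h6, Finset.mul_sum]
    exact Finset.sum_congr rfl fun i _ => by ring
  rw [h7] at h5
  linarith

/-- The quadratic test function in the coordinates `ρ k`. -/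
noncomputable def qt2 {m : ℕ} (ρ : Fin m → EuclideanSpace ℝ (Fin d) → ℝ)
    (c p X : Fin m → ℝ) (w : EuclideanSpace ℝ (Fin d)) : ℝ :=
  ∑ k, (p k * (ρ k w - c k) + X k * (ρ k w - c k) ^ 2)

theorem hasFDerivAt_qt2 {m : ℕ} {ρ : Fin m → EuclideanSpace ℝ (Fin d) → ℝ}
    (c p X : Fin m → ℝ) {w : EuclideanSpace ℝ (Fin d)}
    (h : ∀ k, DifferentiableAt ℝ (ρ k) w) :
    HasFDerivAt (qt2 ρ c p X)
      (∑ k, (p k + 2 * X k * (ρ k w - c k)) • fderiv ℝ (ρ k) w) w := by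
  unfold qt2
  refine HasFDerivAt.fun_sum fun k _ => ?_
  have h1 : HasFDerivAt (fun w => ρ k w - c k) (fderiv ℝ (ρ k) w) w :=
    (h k).hasFDerivAt.sub_const _
  have h2 := (h1.const_mul (p k)).add ((h1.pow 2).const_mul (X k))
  refine h2.congr_fderiv ?_
  ext v
  simp
  ring

theorem contDiffAt_qt2 {m : ℕ} {ρ : Fin m → EuclideanSpace ℝ (Fin d) → ℝ}
    (c p X : Fin m → ℝ) {z : EuclideanSpace ℝ (Fin d)}
    (h : ∀ k, ContDiffAt ℝ 2 (ρ k) z) : ContDiffAt ℝ 2 (qt2 ρ c p X) z := by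
  unfold qt2
  refine ContDiffAt.sum fun k _ => ?_
  have h1 : ContDiffAt ℝ 2 (fun w => ρ k w - c k) z := (h k).sub contDiffAt_const
  exact (contDiffAt_const.mul h1).add (contDiffAt_const.mul (h1.pow 2))

theorem eventually_diff {m : ℕ} {ρ : Fin m → EuclideanSpace ℝ (Fin d) → ℝ}
    {z : EuclideanSpace ℝ (Fin d)} (h : ∀ k, ContDiffAt ℝ 2 (ρ k) z) :
    ∀ᶠ w in 𝓝 z, ∀ k, DifferentiableAt ℝ (ρ k) w := by
  refine eventually_all.2 fun k => ?_
  filter_upwards [(h k).eventually (by simp)] with w hw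
  exact hw.differentiableAt (by norm_num)

theorem diff_fderiv {g : EuclideanSpace ℝ (Fin d) → ℝ} {z : EuclideanSpace ℝ (Fin d)}
    (h : ContDiffAt ℝ 2 g z) : DifferentiableAt ℝ (fderiv ℝ g) z :=
  (h.fderiv_right (m := 1) (by norm_num)).differentiableAt (by norm_num)

theorem fderiv2_qt2 {m : ℕ} {ρ : Fin m → EuclideanSpace ℝ (Fin d) → ℝ}
    (c p X : Fin m → ℝ) {z : EuclideanSpace ℝ (Fin d)}
    (h : ∀ k, ContDiffAt ℝ 2 (ρ k) z) (hz : ∀ k, ρ k z = c k) :
    fderiv ℝ (fderiv ℝ (qt2 ρ c p X)) z =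
      ∑ k, (p k • fderiv ℝ (fderiv ℝ (ρ k)) z +
        ((2 * X k) • fderiv ℝ (ρ k) z).smulRight (fderiv ℝ (ρ k) z)) := by
  have h1 : fderiv ℝ (qt2 ρ c p X) =ᶠ[𝓝 z]
      fun w => ∑ k, (p k + 2 * X k * (ρ k w - c k)) • fderiv ℝ (ρ k) w := by
    filter_upwards [eventually_diff h] with w hw
    exact (hasFDerivAt_qt2 c p X hw).fderiv
  rw [h1.fderiv_eq]
  refine HasFDerivAt.fderiv (HasFDerivAt.fun_sum fun k _ => ?_)
  have h2 : HasFDerivAt (fun w => p k + 2 * X k * (ρ k w - c k))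
      ((2 * X k) • fderiv ℝ (ρ k) z) z :=
    ((((h k).differentiableAt (by norm_num)).hasFDerivAt.sub_const _).const_mul
      (2 * X k)).const_add _
  have h3 := h2.smul (diff_fderiv (h k)).hasFDerivAt
  refine h3.congr_fderiv ?_
  rw [hz k, sub_self, mul_zero, add_zero]

/-- Orthonormality of the gradients. -/
def OrthAt {m : ℕ} (ρ : Fin m → EuclideanSpace ℝ (Fin d) → ℝ)
    (w : EuclideanSpace ℝ (Fin d)) : Prop :=
  ∀ j k, inner ℝ (gradient (ρ j) w) (gradient (ρ k) w) = if j = k then (1 : ℝ) else 0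

theorem apply_of_sum {m : ℕ} {ρ : Fin m → EuclideanSpace ℝ (Fin d) → ℝ}
    {w : EuclideanSpace ℝ (Fin d)} (ho : OrthAt ρ w) (p : Fin m → ℝ)
    {g : EuclideanSpace ℝ (Fin d) → ℝ} (hg : fderiv ℝ g w = ∑ k, p k • fderiv ℝ (ρ k) w)
    (k : Fin m) : fderiv ℝ (ρ k) w (gradient g w) = p k := by
  rw [← inner_grad, real_inner_comm, inner_grad, hg]
  simp only [sum_apply, smul_apply, smul_eq_mul]
  have h1 : ∀ j, fderiv ℝ (ρ j) w (gradient (ρ k) w) = if j = k then (1 : ℝ) else 0 :=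
    fun j => by rw [← inner_grad]; exact ho j k
  simp [h1]

theorem norm_of_sum {m : ℕ} {ρ : Fin m → EuclideanSpace ℝ (Fin d) → ℝ}
    {w : EuclideanSpace ℝ (Fin d)} (ho : OrthAt ρ w) (p : Fin m → ℝ)
    {g : EuclideanSpace ℝ (Fin d) → ℝ} (hg : fderiv ℝ g w = ∑ k, p k • fderiv ℝ (ρ k) w) :
    ‖gradient g w‖ ^ 2 = ∑ k, p k ^ 2 := by
  rw [← real_inner_self_eq_norm_sq, inner_grad]
  conv_lhs => rw [hg]
  simp only [sum_apply, smul_apply, smul_eq_mul]
  refine Finset.sum_congr rfl fun k _ => ?_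
  rw [apply_of_sum ho p hg]
  ring

theorem infLap_qt2 {m : ℕ} {ρ : Fin m → EuclideanSpace ℝ (Fin d) → ℝ}
    (c p X : Fin m → ℝ) {z : EuclideanSpace ℝ (Fin d)}
    (h : ∀ k, ContDiffAt ℝ 2 (ρ k) z) (ho : ∀ᶠ w in 𝓝 z, OrthAt ρ w)
    (hz : ∀ k, ρ k z = c k) :
    infLap (qt2 ρ c p X) z = 2 * ∑ k, p k ^ 2 * X k := by
  have hoz : OrthAt ρ z := ho.self_of_nhds
  -- the linear part
  have hgd : ∀ᶠ w in 𝓝 z, fderiv ℝ (qt2 ρ c p 0) w = ∑ k, p k • fderiv ℝ (ρ k) w := by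
    filter_upwards [eventually_diff h] with w hw
    rw [(hasFDerivAt_qt2 c p 0 hw).fderiv]
    refine Finset.sum_congr rfl fun k _ => ?_
    simp
  have h0 := hess_const_norm (g := qt2 ρ c p 0) (C := ∑ k, p k ^ 2)
    (diff_fderiv (contDiffAt_qt2 c p 0 h)) (by
      filter_upwards [hgd, ho] with w hw how
      exact norm_of_sum how p hw)
  have hgz : fderiv ℝ (qt2 ρ c p X) z = ∑ k, p k • fderiv ℝ (ρ k) z := by
    rw [(hasFDerivAt_qt2 c p X (fun k => (h k).differentiableAt (by norm_num))).fderiv]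
    refine Finset.sum_congr rfl fun k _ => ?_
    rw [hz k, sub_self, mul_zero, add_zero]
  have hgrad : gradient (qt2 ρ c p X) z = gradient (qt2 ρ c p 0) z := by
    unfold gradient
    rw [hgz, hgd.self_of_nhds]
  rw [fderiv2_qt2 c p 0 h hz] at h0
  unfold infLap
  rw [fderiv2_qt2 c p X h hz, hgrad]
  simp only [sum_apply, add_apply, smul_apply, smul_eq_mul,
    ContinuousLinearMap.smulRight_apply] at h0 ⊢
  have h1 : ∀ k, fderiv ℝ (ρ k) z (gradient (qt2 ρ c p 0) z) = p k :=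
    fun k => apply_of_sum hoz p hgd.self_of_nhds k
  simp only [h1, Pi.zero_apply, mul_zero, zero_mul, add_zero] at h0 ⊢
  rw [Finset.sum_add_distrib, h0, zero_add, Finset.mul_sum]
  refine Finset.sum_congr rfl fun k _ => ?_
  ring

end

end P080
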