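import Vale.Agent.Lib.P080.Sub1

/-!
# Separable infinity-harmonic functions in coordinates with orthonormal gradients
-/

namespace P080
open Set Filter Topology

section
variable {d m : ℕ}

theorem exists_global {φ : EuclideanSpace ℝ (Fin d) → ℝ} {z : EuclideanSpace ℝ (Fin d)}
    (h : ContDiffAt ℝ 2 φ z) :
    ∃ ψ : EuclideanSpace ℝ (Fin d) → ℝ, ContDiff ℝ 2 ψ ∧ ψ =ᶠ[𝓝 z] φ := by
  obtain ⟨r, hr, hball⟩ := Metric.eventually_nhds_iff_ball.1
    (h.eventually (by simp) : ∀ᶠ w in 𝓝 z, ContDiffAt ℝ 2 φ w)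
  let χ : ContDiffBump z := ⟨r / 4, r / 2, by positivity, by linarith⟩
  refine ⟨fun w => χ w * φ w, ?_, ?_⟩
  · rw [contDiff_iff_contDiffAt]
    intro x
    by_cases hx : x ∈ Metric.ball z r
    · exact χ.contDiff.contDiffAt.mul (hball x hx)
    · have hx2 : x ∉ tsupport χ := by
        rw [χ.tsupport_eq]
        intro hx3
        apply hx
        have h4 : dist x z ≤ r / 2 := hx3
        rw [Metric.mem_ball]
        linarith
      have h0 : (fun w => χ w * φ w) =ᶠ[𝓝 x] fun _ => (0 : ℝ) := by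
        have h5 : (χ : EuclideanSpace ℝ (Fin d) → ℝ) =ᶠ[𝓝 x] 0 :=
          notMem_tsupport_iff_eventuallyEq.1 hx2
        filter_upwards [h5] with w hw
        rw [hw]
        simp
      exact (contDiffAt_const (c := (0 : ℝ))).congr_of_eventuallyEq h0
  · filter_upwards [χ.eventuallyEq_one] with w hw
    rw [hw]
    simp

theorem infLap_congr {φ ψ : EuclideanSpace ℝ (Fin d) → ℝ} {z : EuclideanSpace ℝ (Fin d)}
    (h : ψ =ᶠ[𝓝 z] φ) : infLap ψ z = infLap φ z := by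
  unfold infLap gradient
  rw [h.fderiv.fderiv_eq, h.fderiv_eq]

theorem test_max {u : EuclideanSpace ℝ (Fin d) → ℝ} {Ω : Set (EuclideanSpace ℝ (Fin d))}
    (hu : InfHarmonicOn u Ω) {z : EuclideanSpace ℝ (Fin d)} (hz : z ∈ Ω)
    {φ : EuclideanSpace ℝ (Fin d) → ℝ} (h : ContDiffAt ℝ 2 φ z)
    (hm : ∀ᶠ w in 𝓝 z, u w - φ w ≤ u z - φ z) : 0 ≤ infLap φ z := by
  obtain ⟨ψ, hψ, he⟩ := exists_global h
  rw [← infLap_congr he]
  refine (hu.2 z hz ψ hψ).1 ?_
  filter_upwards [hm, he] with w hw hw2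
  rw [hw2, he.self_of_nhds]
  exact hw

theorem test_min {u : EuclideanSpace ℝ (Fin d) → ℝ} {Ω : Set (EuclideanSpace ℝ (Fin d))}
    (hu : InfHarmonicOn u Ω) {z : EuclideanSpace ℝ (Fin d)} (hz : z ∈ Ω)
    {φ : EuclideanSpace ℝ (Fin d) → ℝ} (h : ContDiffAt ℝ 2 φ z)
    (hm : ∀ᶠ w in 𝓝 z, u z - φ z ≤ u w - φ w) : infLap φ z ≤ 0 := by
  obtain ⟨ψ, hψ, he⟩ := exists_global h
  rw [← infLap_congr he]
  refine (hu.2 z hz ψ hψ).2 ?_
  filter_upwards [hm, he] with w hw hw2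
  rw [hw2, he.self_of_nhds]
  exact hw

/-- The coordinate map. -/
def cm (ρ : Fin m → EuclideanSpace ℝ (Fin d) → ℝ) (w : EuclideanSpace ℝ (Fin d)) :
    Fin m → ℝ := fun k => ρ k w

theorem map_nhds_cm {ρ : Fin m → EuclideanSpace ℝ (Fin d) → ℝ}
    {w : EuclideanSpace ℝ (Fin d)} (h : ∀ k, ContDiffAt ℝ 2 (ρ k) w) (ho : OrthAt ρ w) :
    map (cm ρ) (𝓝 w) = 𝓝 (cm ρ w) := by
  have h1 : HasStrictFDerivAt (cm ρ) (ContinuousLinearMap.pi fun k => fderiv ℝ (ρ k) w) w :=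
    hasStrictFDerivAt_pi'.2 fun k => (h k).hasStrictFDerivAt (by norm_num)
  refine h1.map_nhds_eq_of_surj ?_
  rw [LinearMap.range_eq_top]
  intro y
  refine ⟨∑ k, y k • gradient (ρ k) w, ?_⟩
  funext j
  show fderiv ℝ (ρ j) w (∑ k, y k • gradient (ρ k) w) = y j
  rw [map_sum]
  have h2 : ∀ k, fderiv ℝ (ρ j) w (y k • gradient (ρ k) w) = if j = k then y k else 0 := by
    intro k
    rw [map_smul, ← inner_grad, ho j k, smul_eq_mul]
    split_ifs <;> simp
  simp [h2]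

/-- Local data. -/
structure Loc (u : EuclideanSpace ℝ (Fin d) → ℝ) (Ω U : Set (EuclideanSpace ℝ (Fin d)))
    (ρ : Fin m → EuclideanSpace ℝ (Fin d) → ℝ) (f : Fin m → ℝ → ℝ)
    (z : EuclideanSpace ℝ (Fin d)) (r : ℝ) : Prop where
  hu : InfHarmonicOn u Ω
  hU : IsOpen U
  hUΩ : U ⊆ Ω
  hρ : ∀ w ∈ U, ∀ k, ContDiffAt ℝ 2 (ρ k) w
  ho : ∀ w ∈ U, OrthAt ρ w
  hsep : ∀ w ∈ U, u w = ∑ k, f k (ρ k w)
  hr : 0 < r
  hz : z ∈ U
  hbox : ∀ y : Fin m → ℝ, (∀ k, y k ∈ Ioo (ρ k z - r) (ρ k z + r)) → ∃ w ∈ U, ∀ k, ρ k w = y k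

variable {u : EuclideanSpace ℝ (Fin d) → ℝ} {Ω U : Set (EuclideanSpace ℝ (Fin d))}
  {ρ : Fin m → EuclideanSpace ℝ (Fin d) → ℝ} {f : Fin m → ℝ → ℝ}
  {z : EuclideanSpace ℝ (Fin d)} {r : ℝ}

theorem Loc.tendsto (h : Loc u Ω U ρ f z r) {w : EuclideanSpace ℝ (Fin d)} (hw : w ∈ U)
    (k : Fin m) : Tendsto (ρ k) (𝓝 w) (𝓝 (ρ k w)) :=
  (h.hρ w hw k).continuousAt

theorem Loc.sum_sup (h : Loc u Ω U ρ f z r) {w : EuclideanSpace ℝ (Fin d)} (hw : w ∈ U)
    (p X : Fin m → ℝ) (hj : ∀ k, SupJ (f k) (ρ k w) (p k) (X k)) :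
    0 ≤ ∑ k, p k ^ 2 * X k := by
  have h1 := test_max h.hu (h.hUΩ hw) (contDiffAt_qt2 (fun k => ρ k w) p X (h.hρ w hw)) (by
    have h2 : ∀ᶠ v in 𝓝 w, ∀ k, f k (ρ k v) ≤ f k (ρ k w)
        + p k * (ρ k v - ρ k w) + X k * (ρ k v - ρ k w) ^ 2 :=
      eventually_all.2 fun k => (h.tendsto hw k).eventually (hj k)
    filter_upwards [h2, h.hU.mem_nhds hw] with v hv hvU
    have h4 : qt2 ρ (fun k => ρ k w) p X w = 0 := by
      unfold qt2; simp
    rw [h4, h.hsep v hvU, h.hsep w hw]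
    unfold qt2
    rw [← Finset.sum_sub_distrib, sub_zero]
    refine Finset.sum_le_sum fun k _ => ?_
    have := hv k
    linarith)
  rw [infLap_qt2 _ p X (h.hρ w hw) (by
    filter_upwards [h.hU.mem_nhds hw] with v hv using h.ho v hv) (fun k => rfl)] at h1
  linarith

theorem Loc.sum_sub (h : Loc u Ω U ρ f z r) {w : EuclideanSpace ℝ (Fin d)} (hw : w ∈ U)
    (p X : Fin m → ℝ) (hj : ∀ k, SubJ (f k) (ρ k w) (p k) (X k)) :
    ∑ k, p k ^ 2 * X k ≤ 0 := by
  have h1 := test_min h.hu (h.hUΩ hw) (contDiffAt_qt2 (fun k => ρ k w) p X (h.hρ w hw)) (by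
    have h2 : ∀ᶠ v in 𝓝 w, ∀ k, f k (ρ k w)
        + p k * (ρ k v - ρ k w) + X k * (ρ k v - ρ k w) ^ 2 ≤ f k (ρ k v) :=
      eventually_all.2 fun k => (h.tendsto hw k).eventually (hj k)
    filter_upwards [h2, h.hU.mem_nhds hw] with v hv hvU
    have h4 : qt2 ρ (fun k => ρ k w) p X w = 0 := by
      unfold qt2; simp
    rw [h4, h.hsep v hvU, h.hsep w hw]
    unfold qt2
    rw [← Finset.sum_sub_distrib, sub_zero]
    refine Finset.sum_le_sum fun k _ => ?_
    have := hv k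
    linarith)
  rw [infLap_qt2 _ p X (h.hρ w hw) (by
    filter_upwards [h.hU.mem_nhds hw] with v hv using h.ho v hv) (fun k => rfl)] at h1
  linarith

theorem Loc.cont (h : Loc u Ω U ρ f z r) (k : Fin m) :
    ContinuousOn (f k) (Ioo (ρ k z - r) (ρ k z + r)) := by
  classical
  have hr := h.hr
  intro t ht
  refine ContinuousAt.continuousWithinAt ?_
  let v : (Fin m → ℝ) → ℝ := fun y => ∑ j, f j (y j)
  let y₀ : Fin m → ℝ := Function.update (fun j => ρ j z) k t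
  have hy₀ : ∀ j, y₀ j ∈ Ioo (ρ j z - r) (ρ j z + r) := by
    intro j
    by_cases hj : j = k
    · subst hj; simpa [y₀] using ht
    · simp only [y₀, ne_eq, hj, not_false_eq_true, Function.update_of_ne]
      exact ⟨by linarith, by linarith⟩
  obtain ⟨w, hw, hwy⟩ := h.hbox y₀ hy₀
  have hcm : cm ρ w = y₀ := funext hwy
  have hv : ContinuousAt v y₀ := by
    have h1 : Tendsto v (map (cm ρ) (𝓝 w)) (𝓝 (v y₀)) := by
      rw [tendsto_map'_iff]
      have h2 : ContinuousAt u w :=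
        h.hu.1.continuousAt (mem_of_superset (h.hU.mem_nhds hw) h.hUΩ)
      have h3 : u w = v y₀ := by
        rw [h.hsep w hw]
        exact Finset.sum_congr rfl fun j _ => by rw [hwy j]
      rw [← h3]
      refine Tendsto.congr' ?_ h2.tendsto
      filter_upwards [h.hU.mem_nhds hw] with x hx
      exact h.hsep x hx
    rw [map_nhds_cm (h.hρ w hw) (h.ho w hw), hcm] at h1
    exact h1
  have hup : Continuous (fun s : ℝ => Function.update (fun j => ρ j z) k s) :=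
    continuous_const.update k continuous_id
  have hcomp : ContinuousAt (fun s : ℝ => v (Function.update (fun j => ρ j z) k s)) t :=
    ContinuousAt.comp (f := fun s : ℝ => Function.update (fun j => ρ j z) k s) hv
      hup.continuousAt
  have heq : f k = fun s => v (Function.update (fun j => ρ j z) k s)
      - ∑ j ∈ Finset.univ \ {k}, f j (ρ j z) := by
    funext s
    have h2 : v (Function.update (fun j => ρ j z) k s) = f k s
        + ∑ j ∈ Finset.univ \ {k}, f j (ρ j z) := by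
      show ∑ j, f j (Function.update (fun j => ρ j z) k s j) = _
      rw [← Finset.sum_sdiff (Finset.subset_univ {k}), add_comm, Finset.sum_singleton]
      congr 1
      · simp
      · refine Finset.sum_congr rfl fun j hj => ?_
        have hjk : j ≠ k := by simpa using hj
        simp [hjk]
    rw [h2]; ring
  rw [heq]
  exact hcomp.sub continuousAt_const

theorem Loc.structure (h : Loc u Ω U ρ f z r) :
    ∃ a e : Fin m → ℝ, ∑ k, a k = 0 ∧ ∀ k,
      (∀ t ∈ Ioo (ρ k z - r) (ρ k z + r), HasDerivAt (f k) (deriv (f k) t) t) ∧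
      (∀ t ∈ Ioo (ρ k z - r) (ρ k z + r), deriv (f k) t ^ 3 = 6 * a k * t + e k) := by
  have hr := h.hr
  obtain ⟨a, ha0, ha⟩ := exists_common
    (fun k => {α : ℝ | ∃ t ∈ Ioo (ρ k z - r) (ρ k z + r),
      ∃ p X, SupJ (f k) t p X ∧ p ^ 2 * X = α})
    (fun k => {α : ℝ | ∃ t ∈ Ioo (ρ k z - r) (ρ k z + r),
      ∃ p X, SubJ (f k) t p X ∧ p ^ 2 * X = α})
    (fun k => by
      obtain ⟨t, ht, p, X, hh⟩ := exists_supJ (by linarith) (h.cont k)
      exact ⟨_, t, ht, p, X, hh, rfl⟩)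
    (fun k => by
      obtain ⟨t, ht, p, X, hh⟩ := exists_subJ (by linarith) (h.cont k)
      exact ⟨_, t, ht, p, X, hh, rfl⟩)
    (by
      intro α hα
      choose t ht p X hj he using hα
      obtain ⟨w, hw, hwt⟩ := h.hbox t ht
      have := h.sum_sup hw p X (fun k => by rw [hwt k]; exact hj k)
      simpa only [he] using this)
    (by
      intro α hα
      choose t ht p X hj he using hα
      obtain ⟨w, hw, hwt⟩ := h.hbox t ht
      have := h.sum_sub hw p X (fun k => by rw [hwt k]; exact hj k)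
      simpa only [he] using this)
    (by
      intro k a b' h1 h2
      exact key_le (by linarith) (h.cont k) (fun t ht p X hj => h1 _ ⟨t, ht, p, X, hj, rfl⟩)
        (fun t ht p X hj => h2 _ ⟨t, ht, p, X, hj, rfl⟩))
  have hkey : ∀ k, _ := fun k => key_eq (h.cont k)
    (fun t ht p X hj => (ha k).1 _ ⟨t, ht, p, X, hj, rfl⟩)
    (fun t ht p X hj => (ha k).2 _ ⟨t, ht, p, X, hj, rfl⟩)
  choose h1 e he using hkey
  exact ⟨a, e, ha0, fun k => ⟨h1 k, he k⟩⟩

end

end P080
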