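import Vale.Agent.Lib.P080.Sub2

/-!
# Regularity of separable infinity-harmonic functions in orthonormal-gradient coordinates
-/

namespace P080
open Set Filter Topology

section
variable {d m : ℕ}
variable {u : EuclideanSpace ℝ (Fin d) → ℝ} {Ω U : Set (EuclideanSpace ℝ (Fin d))}
  {ρ : Fin m → EuclideanSpace ℝ (Fin d) → ℝ} {f : Fin m → ℝ → ℝ}
  {z : EuclideanSpace ℝ (Fin d)} {r : ℝ}

theorem exists_loc (hΩ : IsOpen Ω) (hu : InfHarmonicOn u Ω)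
    (hρ : ∀ k, ContDiffOn ℝ 2 (ρ k) Ω) (ho : ∀ x ∈ Ω, OrthAt ρ x)
    (hsep : ∀ x ∈ Ω, u x = ∑ k, f k (ρ k x)) (hz : z ∈ Ω) :
    ∃ r, Loc u Ω Ω ρ f z r := by
  have hρ' : ∀ w ∈ Ω, ∀ k, ContDiffAt ℝ 2 (ρ k) w :=
    fun w hw k => (hρ k).contDiffAt (hΩ.mem_nhds hw)
  have h1 : cm ρ '' Ω ∈ 𝓝 (cm ρ z) := by
    rw [← map_nhds_cm (hρ' z hz) (ho z hz)]
    exact image_mem_map (hΩ.mem_nhds hz)
  obtain ⟨r, hr, hball⟩ := Metric.mem_nhds_iff.1 h1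
  refine ⟨r, ⟨hu, hΩ, Subset.rfl, hρ', ho, hsep, hr, hz, ?_⟩⟩
  intro y hy
  have h2 : y ∈ Metric.ball (cm ρ z) r := by
    rw [Metric.mem_ball, dist_pi_lt_iff hr]
    intro k
    have h3 := hy k
    rw [Real.dist_eq, abs_lt]
    show -r < y k - ρ k z ∧ y k - ρ k z < r
    exact ⟨by linarith [h3.1], by linarith [h3.2]⟩
  obtain ⟨w, hw, hwy⟩ := hball h2
  exact ⟨w, hw, fun k => congrFun hwy k⟩

theorem toDual_grad (g : EuclideanSpace ℝ (Fin d) → ℝ) (w : EuclideanSpace ℝ (Fin d)) :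
    InnerProductSpace.toDual ℝ (EuclideanSpace ℝ (Fin d)) (gradient g w) = fderiv ℝ g w := by
  unfold gradient
  rw [LinearIsometryEquiv.apply_symm_apply]

theorem Loc.grad (h : Loc u Ω U ρ f z r)
    (hder : ∀ k, ∀ t ∈ Ioo (ρ k z - r) (ρ k z + r), HasDerivAt (f k) (deriv (f k) t) t)
    {w : EuclideanSpace ℝ (Fin d)} (hw : w ∈ U)
    (hwb : ∀ k, ρ k w ∈ Ioo (ρ k z - r) (ρ k z + r)) :
    HasGradientAt u (∑ k, deriv (f k) (ρ k w) • gradient (ρ k) w) w := by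
  rw [hasGradientAt_iff_hasFDerivAt]
  have h1 : HasFDerivAt (fun y => ∑ k, f k (ρ k y))
      (∑ k, deriv (f k) (ρ k w) • fderiv ℝ (ρ k) w) w := by
    refine HasFDerivAt.fun_sum fun k _ => ?_
    exact (hder k _ (hwb k)).comp_hasFDerivAt w
      ((h.hρ w hw k).differentiableAt (by norm_num)).hasFDerivAt
  have h2 : (InnerProductSpace.toDual ℝ (EuclideanSpace ℝ (Fin d)))
      (∑ k, deriv (f k) (ρ k w) • gradient (ρ k) w)
      = ∑ k, deriv (f k) (ρ k w) • fderiv ℝ (ρ k) w := by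
    rw [map_sum]
    refine Finset.sum_congr rfl fun k _ => ?_
    rw [map_smul, toDual_grad]
  rw [h2]
  refine h1.congr_of_eventuallyEq ?_
  filter_upwards [h.hU.mem_nhds hw] with y hy
  exact h.hsep y hy

theorem Loc.ev_box (h : Loc u Ω U ρ f z r) :
    ∀ᶠ w in 𝓝 z, w ∈ U ∧ ∀ k, ρ k w ∈ Ioo (ρ k z - r) (ρ k z + r) := by
  have hr := h.hr
  have h1 : ∀ᶠ w in 𝓝 z, w ∈ U := h.hU.mem_nhds h.hz
  refine h1.and (eventually_all.2 fun k => ?_)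
  exact (h.tendsto h.hz k).eventually (Ioo_mem_nhds (by linarith) (by linarith))

theorem norm_of_orth {w : EuclideanSpace ℝ (Fin d)} (ho : OrthAt ρ w) (k : Fin m) :
    ‖gradient (ρ k) w‖ = 1 := by
  have h1 := ho k k
  rw [real_inner_self_eq_norm_sq] at h1
  simp only [if_true] at h1
  have h2 := norm_nonneg (gradient (ρ k) w)
  nlinarith

theorem inner_of_orth {w : EuclideanSpace ℝ (Fin d)} (ho : OrthAt ρ w) (c : Fin m → ℝ)
    (k : Fin m) : inner ℝ (gradient (ρ k) w) (∑ j, c j • gradient (ρ j) w) = c k := by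
  rw [inner_sum]
  have h1 : ∀ j, inner ℝ (gradient (ρ k) w) (c j • gradient (ρ j) w)
      = if k = j then c j else 0 := by
    intro j
    rw [inner_smul_right, ho k j]
    split_ifs <;> simp
  simp [h1]

theorem lip_ev {G : Type} [NormedAddCommGroup G] [NormedSpace ℝ G]
    {F : EuclideanSpace ℝ (Fin d) → G} (hF : ContDiffAt ℝ 1 F z) :
    ∃ L : ℝ, 0 ≤ L ∧ ∀ᶠ p : EuclideanSpace ℝ (Fin d) × EuclideanSpace ℝ (Fin d) in 𝓝 (z, z),
      ‖F p.1 - F p.2‖ ≤ L * ‖p.1 - p.2‖ := by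
  obtain ⟨K, t, ht, hK⟩ := hF.exists_lipschitzOnWith
  refine ⟨K, K.2, ?_⟩
  filter_upwards [prod_mem_nhds ht ht] with p hp
  have := hK.dist_le_mul p.1 hp.1 p.2 hp.2
  rwa [dist_eq_norm, dist_eq_norm] at this

theorem sum_cube_le (D : Fin m → ℝ) (hD : ∀ k, 0 ≤ D k) :
    (∑ k, D k) ^ 3 ≤ (m : ℝ) ^ 2 * ∑ k, D k ^ 3 := by
  rcases Nat.eq_zero_or_pos m with hm | hm
  · subst hm; simp
  · have hm' : (0 : ℝ) < m := by exact_mod_cast hm
    have hp := pow_sum_div_card_le_sum_pow (s := Finset.univ) (f := D) (fun k _ => hD k) 2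
    simp only [Finset.card_univ, Fintype.card_fin] at hp
    rw [div_le_iff₀ (by positivity)] at hp
    have e : (∑ k, D k) ^ (2 + 1) = (∑ k, D k) ^ 3 := rfl
    rw [e] at hp
    calc _ ≤ _ := hp
      _ = _ := by ring

theorem add_cube_le {A B : ℝ} (hA : 0 ≤ A) (hB : 0 ≤ B) :
    (A + B) ^ 3 ≤ 4 * (A ^ 3 + B ^ 3) := by
  nlinarith [mul_nonneg (add_nonneg hA hB) (sq_nonneg (A - B))]


theorem Loc.cont_deriv (h : Loc u Ω U ρ f z r) {a e : Fin m → ℝ}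
    (hae : ∀ k, ∀ t ∈ Ioo (ρ k z - r) (ρ k z + r), deriv (f k) t ^ 3 = 6 * a k * t + e k)
    (k : Fin m) : ContinuousAt (fun w => deriv (f k) (ρ k w)) z := by
  have hr := h.hr
  have h1 : ContinuousAt (deriv (f k)) (ρ k z) := by
    refine continuousAt_of_cube (c := 6 * a k) (e := e k) ?_
    filter_upwards [Ioo_mem_nhds (show ρ k z - r < ρ k z by linarith)
      (show ρ k z < ρ k z + r by linarith)] with t ht
    exact hae k t ht
  exact ContinuousAt.comp (f := ρ k) h1 (h.tendsto h.hz k)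

/-- One term of the gradient is locally `1/3`-Hölder. -/
theorem Loc.term_holder (h : Loc u Ω U ρ f z r) {a e : Fin m → ℝ}
    (hae : ∀ k, ∀ t ∈ Ioo (ρ k z - r) (ρ k z + r), deriv (f k) t ^ 3 = 6 * a k * t + e k)
    (k : Fin m) :
    ∃ C : ℝ, ∀ᶠ p : EuclideanSpace ℝ (Fin d) × EuclideanSpace ℝ (Fin d) in 𝓝 (z, z),
      ‖deriv (f k) (ρ k p.1) • gradient (ρ k) p.1 - deriv (f k) (ρ k p.2) • gradient (ρ k) p.2‖ ^ 3
        ≤ C * ‖p.1 - p.2‖ := by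
  obtain ⟨L₁, hL₁, h1⟩ := lip_ev (F := ρ k) ((h.hρ z h.hz k).of_le (by norm_num))
  obtain ⟨L₂, hL₂, h2⟩ := lip_ev (F := fderiv ℝ (ρ k))
    ((h.hρ z h.hz k).fderiv_right (m := 1) (by norm_num))
  have h3 : ∀ᶠ w in 𝓝 z, |deriv (f k) (ρ k w)| < |deriv (f k) (ρ k z)| + 1 :=
    (h.cont_deriv hae k).abs.eventually_lt_const (by linarith)
  set V := |deriv (f k) (ρ k z)| + 1 with hV
  have hV0 : 0 < V := by positivity
  have h4 := h.ev_box
  have h5 : ∀ᶠ w in 𝓝 z, w ∈ Metric.ball z (1 / 2) := Metric.ball_mem_nhds z (by norm_num)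
  have h6 : ∀ᶠ w in 𝓝 z, |deriv (f k) (ρ k w)| < V ∧
      (w ∈ U ∧ ∀ k, ρ k w ∈ Ioo (ρ k z - r) (ρ k z + r)) ∧ w ∈ Metric.ball z (1 / 2) :=
    h3.and (h4.and h5)
  have h7 : ∀ᶠ p : EuclideanSpace ℝ (Fin d) × EuclideanSpace ℝ (Fin d) in 𝓝 (z, z),
      (|deriv (f k) (ρ k p.1)| < V ∧ (p.1 ∈ U ∧ ∀ k, ρ k p.1 ∈ Ioo (ρ k z - r) (ρ k z + r)) ∧
        p.1 ∈ Metric.ball z (1 / 2)) ∧
      (|deriv (f k) (ρ k p.2)| < V ∧ (p.2 ∈ U ∧ ∀ k, ρ k p.2 ∈ Ioo (ρ k z - r) (ρ k z + r)) ∧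
        p.2 ∈ Metric.ball z (1 / 2)) := by
    rw [nhds_prod_eq]
    exact h6.prod_mk h6
  refine ⟨4 * (4 * |6 * a k| * L₁ + (V * L₂) ^ 3), ?_⟩
  filter_upwards [h1, h2, h7] with p hp1 hp2 hp3
  obtain ⟨⟨q1, ⟨q2, q3⟩, q4⟩, ⟨q1', ⟨q2', q3'⟩, q4'⟩⟩ := hp3
  set N := ‖p.1 - p.2‖ with hN
  have hN0 : 0 ≤ N := norm_nonneg _
  have hN1 : N ≤ 1 := by
    rw [Metric.mem_ball, dist_eq_norm] at q4 q4'
    have e : p.1 - p.2 = (p.1 - z) - (p.2 - z) := by abel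
    rw [hN, e]
    refine (norm_sub_le _ _).trans ?_
    linarith
  have hA : ‖deriv (f k) (ρ k p.1) • gradient (ρ k) p.1
      - deriv (f k) (ρ k p.2) • gradient (ρ k) p.2‖
      ≤ |deriv (f k) (ρ k p.1) - deriv (f k) (ρ k p.2)| + V * L₂ * N := by
    have e : deriv (f k) (ρ k p.1) • gradient (ρ k) p.1
        - deriv (f k) (ρ k p.2) • gradient (ρ k) p.2
        = (deriv (f k) (ρ k p.1) - deriv (f k) (ρ k p.2)) • gradient (ρ k) p.1
          + deriv (f k) (ρ k p.2) • (gradient (ρ k) p.1 - gradient (ρ k) p.2) := by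
      rw [sub_smul, smul_sub]; abel
    rw [e]
    refine (norm_add_le _ _).trans ?_
    rw [norm_smul, norm_smul, norm_of_orth (h.ho p.1 q2) k, mul_one, Real.norm_eq_abs,
      Real.norm_eq_abs]
    have hg : ‖gradient (ρ k) p.1 - gradient (ρ k) p.2‖ ≤ L₂ * N := by
      rw [← (InnerProductSpace.toDual ℝ (EuclideanSpace ℝ (Fin d))).norm_map, map_sub,
        toDual_grad, toDual_grad]
      exact hp2
    have h8 : |deriv (f k) (ρ k p.2)| * ‖gradient (ρ k) p.1 - gradient (ρ k) p.2‖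
        ≤ V * (L₂ * N) := mul_le_mul q1'.le hg (norm_nonneg _) hV0.le
    linarith
  have hB : |deriv (f k) (ρ k p.1) - deriv (f k) (ρ k p.2)| ^ 3 ≤ 4 * |6 * a k| * L₁ * N := by
    have h9 := abs_sub_cube_le (deriv (f k) (ρ k p.1)) (deriv (f k) (ρ k p.2))
    have h10 : deriv (f k) (ρ k p.1) ^ 3 - deriv (f k) (ρ k p.2) ^ 3
        = 6 * a k * (ρ k p.1 - ρ k p.2) := by
      rw [hae k _ (q3 k), hae k _ (q3' k)]; ring
    rw [h10, abs_mul] at h9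
    rw [Real.norm_eq_abs] at hp1
    have h11 : |6 * a k| * |ρ k p.1 - ρ k p.2| ≤ |6 * a k| * (L₁ * N) :=
      mul_le_mul_of_nonneg_left hp1 (abs_nonneg _)
    linarith
  have hC : (V * L₂ * N) ^ 3 ≤ (V * L₂) ^ 3 * N := by
    have h12 : N ^ 3 ≤ N := by
      calc N ^ 3 = N * N ^ 2 := by ring
        _ ≤ N * 1 := mul_le_mul_of_nonneg_left (pow_le_one₀ hN0 hN1) hN0
        _ = N := mul_one N
    calc (V * L₂ * N) ^ 3 = (V * L₂) ^ 3 * N ^ 3 := by ring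
      _ ≤ (V * L₂) ^ 3 * N := mul_le_mul_of_nonneg_left h12 (by positivity)
  have hD := pow_le_pow_left₀ (norm_nonneg _) hA 3
  have hE := add_cube_le (abs_nonneg (deriv (f k) (ρ k p.1) - deriv (f k) (ρ k p.2)))
    (show 0 ≤ V * L₂ * N by positivity)
  calc _ ≤ _ := hD
    _ ≤ _ := hE
    _ ≤ 4 * (4 * |6 * a k| * L₁ * N + (V * L₂) ^ 3 * N) := by linarith
    _ = 4 * (4 * |6 * a k| * L₁ + (V * L₂) ^ 3) * N := by ring

theorem Loc.main (h : Loc u Ω U ρ f z r) :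
    DifferentiableAt ℝ u z ∧
    (∃ C : ℝ, ∀ᶠ p : EuclideanSpace ℝ (Fin d) × EuclideanSpace ℝ (Fin d) in 𝓝 (z, z),
      ‖gradient u p.1 - gradient u p.2‖ ^ 3 ≤ C * ‖p.1 - p.2‖) ∧
    ∃ a e : Fin m → ℝ, ∑ k, a k = 0 ∧ ∀ᶠ x in 𝓝 z, ∀ k,
      (inner ℝ (gradient (ρ k) x) (gradient u x)) ^ 3 = a k * ρ k x + e k := by
  obtain ⟨a, e, ha0, hae⟩ := h.structure
  have hg : ∀ᶠ w in 𝓝 z, HasGradientAt u (∑ k, deriv (f k) (ρ k w) • gradient (ρ k) w) w := by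
    filter_upwards [h.ev_box] with w hw
    exact h.grad (fun k => (hae k).1) hw.1 hw.2
  refine ⟨hg.self_of_nhds.differentiableAt, ?_, ?_⟩
  · choose C hC using fun k => h.term_holder (fun k => (hae k).2) k
    refine ⟨(m : ℝ) ^ 2 * ∑ k, C k, ?_⟩
    have hg2 : ∀ᶠ p : EuclideanSpace ℝ (Fin d) × EuclideanSpace ℝ (Fin d) in 𝓝 (z, z),
        HasGradientAt u (∑ k, deriv (f k) (ρ k p.1) • gradient (ρ k) p.1) p.1 ∧
        HasGradientAt u (∑ k, deriv (f k) (ρ k p.2) • gradient (ρ k) p.2) p.2 := by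
      rw [nhds_prod_eq]
      exact hg.prod_mk hg
    filter_upwards [hg2, eventually_all.2 hC] with p hp1 hp2
    rw [hp1.1.gradient, hp1.2.gradient, ← Finset.sum_sub_distrib]
    have h1 := pow_le_pow_left₀ (norm_nonneg _) (norm_sum_le Finset.univ (fun k =>
      deriv (f k) (ρ k p.1) • gradient (ρ k) p.1 - deriv (f k) (ρ k p.2) • gradient (ρ k) p.2)) 3
    have h2 := sum_cube_le (fun k => ‖deriv (f k) (ρ k p.1) • gradient (ρ k) p.1
      - deriv (f k) (ρ k p.2) • gradient (ρ k) p.2‖) (fun k => norm_nonneg _)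
    have h3 : ∑ k, ‖deriv (f k) (ρ k p.1) • gradient (ρ k) p.1
      - deriv (f k) (ρ k p.2) • gradient (ρ k) p.2‖ ^ 3 ≤ ∑ k, C k * ‖p.1 - p.2‖ :=
      Finset.sum_le_sum fun k _ => hp2 k
    rw [← Finset.sum_mul] at h3
    calc _ ≤ _ := h1
      _ ≤ _ := h2
      _ ≤ (m : ℝ) ^ 2 * ((∑ k, C k) * ‖p.1 - p.2‖) :=
          mul_le_mul_of_nonneg_left h3 (by positivity)
      _ = _ := by ring
  · refine ⟨fun k => 6 * a k, e, by rw [← Finset.mul_sum, ha0, mul_zero], ?_⟩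
    filter_upwards [hg, h.ev_box] with x hx hxb k
    rw [hx.gradient, inner_of_orth (h.ho x hxb.1)]
    exact (hae k).2 _ (hxb.2 k)

/-- A local Hölder bound gives continuity. -/
theorem continuousAt_of_holder {F : EuclideanSpace ℝ (Fin d) → EuclideanSpace ℝ (Fin d)} {C : ℝ}
    (h : ∀ᶠ p : EuclideanSpace ℝ (Fin d) × EuclideanSpace ℝ (Fin d) in 𝓝 (z, z),
      ‖F p.1 - F p.2‖ ^ 3 ≤ C * ‖p.1 - p.2‖) : ContinuousAt F z := by
  rw [Metric.continuousAt_iff']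
  intro ε hε
  have h1 : ∀ᶠ x in 𝓝 z, ‖F x - F z‖ ^ 3 ≤ C * ‖x - z‖ := by
    rw [nhds_prod_eq] at h
    have h2 := h.curry
    filter_upwards [h2] with x hx
    exact hx.self_of_nhds
  have h3 : ∀ᶠ x in 𝓝 z, C * ‖x - z‖ < ε ^ 3 := by
    have : ContinuousAt (fun x => C * ‖x - z‖) z := by fun_prop
    apply this.eventually_lt_const
    simp only [sub_self, norm_zero, mul_zero]
    positivity
  filter_upwards [h1, h3] with x hx hx3
  rw [dist_eq_norm]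
  exact lt_of_pow_lt_pow_left₀ 3 hε.le (lt_of_le_of_lt hx hx3)

end

end P080
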